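import Vale.Agent.P042.H945.State6
set_option autoImplicit false

/-!
P042 [D]: literal consequences of the master inequality of the extremal state (H945/State6):
conditioning on an event inside one cell, removal of residue classes, lower bound for the atoms.
-/

namespace Vale.Agent.P042.H305

open Finset Vale.Agent.P042.H599 Vale.Agent.P042.H945

variable {ι : Type} {Q : Par ι} {N d M : ℕ} {A0 : Finset ℤ} {a : ℤ} {x y : ℕ → ℝ}

/-- far from the cap -/
def Gd (Q : Par ι) (M : ℕ) (x : ℕ → ℝ) (n : ℕ) : Prop := M * x n ≤ Real.exp (Q.D0 / 2)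

theorem rst_of {S : ℕ → Prop} {n : ℕ} (h : S n) : rst x M S n = x n / ms x M S := by
  classical
  unfold rst ms
  rw [if_pos h]

theorem rst_not {S : ℕ → Prop} {n : ℕ} (h : ¬ S n) : rst x M S n = 0 := by
  classical
  unfold rst
  rw [if_neg h]

theorem rst_ne {S : ℕ → Prop} {n : ℕ} (h : rst x M S n ≠ 0) : S n ∧ x n ≠ 0 := by
  classical
  by_cases h1 : S n
  · rw [rst_of h1] at h
    exact ⟨h1, fun h2 => h (by rw [h2, zero_div])⟩
  · exact absurd (rst_not h1) h

theorem rst_kl2 (hx : Law x 1 M) {S : ℕ → Prop} (h : 0 < ms x M S) :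
    kl2 (rst x M S) x M = -Real.log (ms x M S) := by
  classical
  have hl := rst_law hx h
  have h1 : ∀ i < M, rst x M S (1 + i) * (Real.log (rst x M S (1 + i)) - Real.log (x (1 + i))) =
      rst x M S (1 + i) * (-Real.log (ms x M S)) := by
    intro i _
    rcases eq_or_ne (rst x M S (1 + i)) 0 with h0 | h0
    · rw [h0, zero_mul, zero_mul]
    · obtain ⟨h2, h3⟩ := rst_ne h0
      rw [rst_of h2, Real.log_div h3 h.ne']
      ring
  unfold kl2
  rw [SM_congr (g := fun n => rst x M S n * (-Real.log (ms x M S))) h1, SM_const_mul, law_one hl,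
    one_mul]

theorem ms_mono (hx : Law x 1 M) {S T : ℕ → Prop} (h : ∀ n, S n → T n) : ms x M S ≤ ms x M T := by
  classical
  unfold ms
  refine SM_le fun i hi => ?_
  by_cases h1 : S (1 + i)
  · rw [if_pos h1, if_pos (h _ h1)]
  · rw [if_neg h1]
    split_ifs
    · exact hx.nonneg i hi
    · exact le_rfl

theorem ms_or (hx : Law x 1 M) {S T U : ℕ → Prop} (h : ∀ n, S n → T n ∨ U n) :
    ms x M S ≤ ms x M T + ms x M U := by
  classical
  unfold ms
  rw [← SM_add]
  refine SM_le fun i hi => ?_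
  have hn := hx.nonneg i hi
  by_cases h1 : S (1 + i)
  · rw [if_pos h1]
    rcases h _ h1 with h2 | h2
    · rw [if_pos h2]
      split_ifs <;> linarith
    · rw [if_pos h2]
      split_ifs <;> linarith
  · rw [if_neg h1]
    split_ifs <;> linarith

/-- the law conditioned on an event inside one cell is a competitor -/
theorem comp_rst (hm : Law x 1 M) {D w u v : ℕ} (hD : 1 ≤ D) (hu : 1 ≤ u) (hv : v ≤ M)
    (huv : 2 * Q.Mm * Q.lam D ≤ v + 1 - u) (hlam : 0 < Q.lam D) (hMm : 1 ≤ Q.Mm)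
    {S : ℕ → Prop}
    (hS : ∀ n, S n → Gd Q M x n ∧ u ≤ n ∧ n ≤ v ∧ n % D = w)
    (hmS : Real.exp (-(Q.D0 / 4)) * ((v + 1 - u : ℕ) : ℝ) ≤ D * (ms x M S * M)) :
    Comp Q M x D w u v (rst x M S) := by
  have hV : 0 < v + 1 - u := by
    have : 0 < 2 * Q.Mm * Q.lam D := by positivity
    omega
  have hV' : (0 : ℝ) < ((v + 1 - u : ℕ) : ℝ) := by exact_mod_cast hV
  have hM' : (0 : ℝ) < M := by exact_mod_cast hm.pos
  have hD' : (0 : ℝ) < D := by exact_mod_cast hD
  have hpos : 0 < ms x M S := by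
    have h1 : 0 < (D : ℝ) * (ms x M S * M) := lt_of_lt_of_le (by positivity) hmS
    have h2 : 0 ≤ ms x M S := ms_nonneg hm S
    rcases h2.eq_or_lt with h3 | h3
    · rw [← h3] at h1; simp at h1
    · exact h3
  refine ⟨hD, hu, hv, huv, rst_law hm hpos, fun n hn => ?_, fun n => ?_⟩
  · obtain ⟨h1, h2⟩ := rst_ne hn
    exact ⟨h2, (hS n h1).2⟩
  · by_cases h1 : S n
    · rw [rst_of h1, div_le_div_iff₀ hpos hV']
      have h2 : M * x n ≤ Real.exp (Q.D0 / 2) := (hS n h1).1
      have h3 : Real.exp (3 / 4 * Q.D0) * Real.exp (-(Q.D0 / 4)) = Real.exp (Q.D0 / 2) := by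
        rw [← Real.exp_add]; congr 1; ring
      have h4 : Real.exp (Q.D0 / 2) * ((v + 1 - u : ℕ) : ℝ) ≤
          Real.exp (3 / 4 * Q.D0) * (D * (ms x M S * M)) := by
        rw [← h3, mul_assoc]
        exact mul_le_mul_of_nonneg_left hmS (Real.exp_pos _).le
      have h5 : M * x n * ((v + 1 - u : ℕ) : ℝ) ≤
          Real.exp (Q.D0 / 2) * ((v + 1 - u : ℕ) : ℝ) := mul_le_mul_of_nonneg_right h2 hV'.le
      have h6 : M * (x n * ((v + 1 - u : ℕ) : ℝ)) ≤
          M * (Real.exp (3 / 4 * Q.D0) * D * ms x M S) := by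
        calc M * (x n * ((v + 1 - u : ℕ) : ℝ)) = M * x n * ((v + 1 - u : ℕ) : ℝ) := by ring
          _ ≤ _ := h5
          _ ≤ _ := h4
          _ = _ := by ring
      exact le_of_mul_le_mul_left h6 hM'
    · rw [rst_not h1]; positivity

/-- **the master inequality for the law conditioned on an event inside one cell** -/
theorem cell_event {L : ℝ} (hm : Mx Q N A0 d a M x L) {D w u v : ℕ} (hD : 1 ≤ D) (hu : 1 ≤ u)
    (hv : v ≤ M) (huv : 2 * Q.Mm * Q.lam D ≤ v + 1 - u) {S : ℕ → Prop}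
    (hS : ∀ n, S n → Gd Q M x n ∧ u ≤ n ∧ n ≤ v ∧ n % D = w)
    (hmS : Real.exp (-(Q.D0 / 4)) * ((v + 1 - u : ℕ) : ℝ) ≤ D * (ms x M S * M))
    {OB : ℝ} (hOB : ∀ S, Om Q d S ≤ OB)
    (mp : ι → ℕ) (hmp : ∀ i ∈ Q.I, 0 < mp i ∧ mp i ∣ Q.m i ∧ Nat.Coprime (mp i) D) :
    (1 - Q.eta) * (Real.log M - Real.log ((v + 1 - u : ℕ) : ℝ)) + Real.log D -
        Q.eta * Real.log (Q.lam D) + KC Q M x mp (rst x M S) + Omc Q d D M (rst x M S) ≤
    -Real.log (ms x M S) + SC Q M x mp (rst x M S) + Om Q d (sp x M) +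
      Err Q M L OB (1 / ms x M S) (Q.lam D / ((v + 1 - u : ℕ) : ℝ)) := by
  have hx := hm.mx.1.law
  have hc := comp_rst (Q := Q) hx hD hu hv huv (hm.ok.lam0 D hD)
    (le_trans (by norm_num) hm.ok.Mm1) hS hmS
  have hpos : 0 < ms x M S := by
    have hV : 0 < v + 1 - u := by
      have h1 := hm.ok.lam0 D hD
      have h2 := hm.ok.Mm1
      have : 0 < 2 * Q.Mm * Q.lam D := by positivity
      omega
    have hV' : (0 : ℝ) < ((v + 1 - u : ℕ) : ℝ) := by exact_mod_cast hV
    have h1 : 0 < (D : ℝ) * (ms x M S * M) := lt_of_lt_of_le (by positivity) hmS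
    have h2 : 0 ≤ ms x M S := ms_nonneg hx S
    rcases h2.eq_or_lt with h3 | h3
    · rw [← h3] at h1; simp at h1
    · exact h3
  have hle : ms x M S ≤ 1 := ms_le_one hx S
  have hxn := law_nonneg hm.mx.1
  have h1 := master hm hc (K := 1 / ms x M S) (by rw [le_div_iff₀ hpos]; linarith)
    (fun n => by
      by_cases h1 : S n
      · rw [rst_of h1, div_mul_eq_mul_div, one_mul]
      · rw [rst_not h1]
        have := hxn n
        positivity) hOB mp hmp
  rw [rst_kl2 hx hpos] at h1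
  exact h1


theorem Err_mono (hQ : Ok Q) {L OB K K' r r' : ℝ} (hK : 0 < K) (hK' : K ≤ K') (hr : r ≤ r') :
    Err Q M L OB K r ≤ Err Q M L OB K' r' := by
  unfold Err
  have h1 := C1_nonneg hQ
  have h2 := Real.log_le_log hK hK'
  have h3 : 0 < Real.exp (-(Q.D0 / 4)) := Real.exp_pos _
  have h4 : 2 * C1 Q * Real.log K ≤ 2 * C1 Q * Real.log K' :=
    mul_le_mul_of_nonneg_left h2 (by positivity)
  have h5 : 2 * Real.exp (-(Q.D0 / 4)) * (2 * Real.log M + OB + 2 * C1 Q * Real.log K +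
      2 * C1 Q * (1 + Q.D0 / 4 + Real.log M)) ≤
      2 * Real.exp (-(Q.D0 / 4)) * (2 * Real.log M + OB + 2 * C1 Q * Real.log K' +
      2 * C1 Q * (1 + Q.D0 / 4 + Real.log M)) :=
    mul_le_mul_of_nonneg_left (by linarith) (by positivity)
  linarith

theorem Err_nonneg (hQ : Ok Q) (hM : 0 < M) {L OB K r : ℝ} (hL : 0 ≤ L) (hOB : 0 ≤ OB)
    (hK : 1 ≤ K) (hr : 0 ≤ r) : 0 ≤ Err Q M L OB K r := by
  unfold Err
  have h1 := C1_nonneg hQ
  have h2 := t1_nonneg hQ hL
  have h3 : 0 ≤ Real.log M := Real.log_nonneg (by exact_mod_cast hM)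
  have h4 := Real.log_nonneg hK
  have h5 := hQ.D00
  positivity

theorem OB_nonneg {L : ℝ} (hm : Mx Q N A0 d a M x L) {OB : ℝ} (hOB : ∀ S, Om Q d S ≤ OB) :
    0 ≤ OB := (Om_nonneg hm.ok d ∅).trans (hOB ∅)

theorem KC_nonneg {L : ℝ} (hm : Mx Q N A0 d a M x L) (mp : ι → ℕ)
    (hmp : ∀ i ∈ Q.I, 0 < mp i) (hy : Law y 1 M) (h : AC y x M) : 0 ≤ KC Q M x mp y := by
  unfold KC
  exact Finset.sum_nonneg fun i hi => mul_nonneg (hm.ok.hc i hi)
    (klc_nonneg hy hm.mx.1.law h (hmp i hi))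

/-- the bad part has tiny mass -/
theorem bad_small {L : ℝ} (hm : Mx Q N A0 d a M x L) :
    ms x M (fun n => ¬ Gd Q M x n) ≤ Real.exp (-(Q.D0 / 4)) := by
  have h1 := cut_small hm.ok hm.mx hm.base hm.hD0
  refine (ms_mono hm.mx.1.law fun n hn => ?_).trans h1
  unfold Gd at hn
  exact not_le.1 hn

theorem ms_compl_le (hx : Law x 1 M) {S T : ℕ → Prop} (h : ∀ n, 1 ≤ n → n ≤ M → S n ∨ T n) :
    1 ≤ ms x M S + ms x M T := by
  classical
  rw [← law_one hx]
  unfold ms
  rw [← SM_add]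
  refine SM_le fun i hi => ?_
  have hn := hx.nonneg i hi
  rcases h (1 + i) (by omega) (by omega) with h2 | h2
  · rw [if_pos h2]
    split_ifs <;> linarith
  · rw [if_pos h2]
    split_ifs <;> linarith

/-- **removal of residue classes** -/
theorem removal {L : ℝ} (hm : Mx Q N A0 d a M x L) {OB : ℝ} (hOB : ∀ S, Om Q d S ≤ OB)
    (hMM : 2 * Q.Mm ≤ M) {p : ℕ} (hp : p ∈ Q.W) (T : Finset ℕ) {g : ℝ} (hg1 : g ≤ 1)
    (hgain : Q.om p d (rs (sp x M) p) + g ≤ Q.om p d (rs (sp x M) p \ T)) :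
    g / 2 ≤ ms x M (fun n => Gd Q M x n ∧ n % p ∈ T) + Real.exp (-(Q.D0 / 4)) +
      Err Q M L OB 2 (1 / M) := by
  classical
  have hQ := hm.ok
  have hx := hm.mx.1.law
  have hM0 : 0 < M := hx.pos
  have hM' : (0 : ℝ) < M := by exact_mod_cast hM0
  have hOB0 := OB_nonneg hm hOB
  set S : ℕ → Prop := fun n => (Gd Q M x n ∧ 1 ≤ n ∧ n ≤ M) ∧ n % p ∉ T with hS
  set s := ms x M S with hs
  have hE0 : 0 ≤ Err Q M L OB 2 (1 / M) :=
    Err_nonneg hQ hM0 hm.L0 hOB0 (by norm_num) (by positivity)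
  have hs1 : s ≤ 1 := ms_le_one hx S
  have h1s : 1 ≤ s + (ms x M (fun n => Gd Q M x n ∧ n % p ∈ T) + Real.exp (-(Q.D0 / 4))) := by
    have h1 := ms_compl_le hx (S := S)
      (T := fun n => (Gd Q M x n ∧ n % p ∈ T) ∨ ¬ Gd Q M x n) (fun n h1 h2 => by
        simp only [hS]
        by_cases h3 : Gd Q M x n
        · by_cases h4 : n % p ∈ T
          · exact Or.inr (Or.inl ⟨h3, h4⟩)
          · exact Or.inl ⟨⟨h3, h1, h2⟩, h4⟩
        · exact Or.inr (Or.inr h3))
    have h2 := ms_or hx (S := fun n => (Gd Q M x n ∧ n % p ∈ T) ∨ ¬ Gd Q M x n)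
      (T := fun n => Gd Q M x n ∧ n % p ∈ T) (U := fun n => ¬ Gd Q M x n) (fun n h => h)
    have h3 := bad_small hm
    linarith
  rcases lt_or_ge s (1 / 2) with hlt | hge
  · linarith
  · have hexp := hm.hD2
    have hce := cell_event hm (D := 1) (w := 0) (u := 1) (v := M) le_rfl le_rfl le_rfl (by
        rw [hQ.lam1]; omega) (S := S) (fun n hn => by
        simp only [hS] at hn
        exact ⟨hn.1.1, hn.1.2.1, hn.1.2.2, Nat.mod_one n⟩) (by
        rw [show M + 1 - 1 = M by omega, Nat.cast_one, one_mul]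
        exact mul_le_mul_of_nonneg_right (by linarith) hM'.le) hOB Q.m (fun i hi =>
        ⟨hQ.hm i hi, dvd_refl _, Nat.coprime_one_right _⟩)
    rw [show M + 1 - 1 = M by omega, hQ.lam1] at hce
    simp only [Nat.cast_one, Real.log_one, sub_self, mul_zero, add_zero, zero_add] at hce
    have hspos : 0 < s := by linarith
    have hlaw := rst_law hx hspos
    have hac : AC (rst x M S) x M := fun i _ h0 => by
      by_contra h1
      exact (rst_ne h1).2 h0
    have hKC := KC_nonneg hm Q.m (fun i hi => hQ.hm i hi) hlaw hac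
    have hSC : SC Q M x Q.m (rst x M S) = 0 := by
      unfold SC
      refine Finset.sum_eq_zero fun i _ => ?_
      have : SM M (fun n => rst x M S n * (lc x M (Q.m i) n - lc x M (Q.m i) n)) = 0 := by
        unfold SM
        exact Finset.sum_eq_zero fun i _ => by simp
      rw [this, mul_zero]
    have hOmc : Om Q d (sp x M) + g ≤ Omc Q d 1 M (rst x M S) := by
      have h1 : Omc Q d 1 M (rst x M S) = Om Q d (sp (rst x M S) M) := by
        unfold Omc Om
        rw [Finset.filter_true_of_mem fun p _ => Nat.coprime_one_right p]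
      rw [h1]
      unfold Om
      rw [← Finset.add_sum_erase _ _ hp, ← Finset.add_sum_erase (a := p) Q.W
        (fun p => Q.om p d (rs (sp (rst x M S) M) p)) hp]
      have hsub : sp (rst x M S) M ⊆ sp x M := by
        intro n hn
        unfold sp at hn ⊢
        obtain ⟨h3, h4⟩ := Finset.mem_filter.1 hn
        exact Finset.mem_filter.2 ⟨h3, (rst_ne h4).2⟩
      have h3 : ∑ q ∈ Q.W.erase p, Q.om q d (rs (sp x M) q) ≤
          ∑ q ∈ Q.W.erase p, Q.om q d (rs (sp (rst x M S) M) q) :=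
        Finset.sum_le_sum fun q hq => om_anti hQ hm.mx.1.hd (Finset.mem_of_mem_erase hq) hsub
      have h4 : Q.om p d (rs (sp x M) p \ T) ≤ Q.om p d (rs (sp (rst x M S) M) p) := by
        have h5 := hQ.omt p hp d 1 0 (rs (sp x M) p \ T) (rs (sp (rst x M S) M) p) hm.mx.1.hd
          le_rfl (Nat.coprime_one_right p) (by
          intro y hy
          unfold rs at hy
          obtain ⟨n, hn, rfl⟩ := Finset.mem_image.1 hy
          have hn' := hsub hn
          unfold sp at hn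
          obtain ⟨h6, h7⟩ := Finset.mem_filter.1 hn
          have h8 := (rst_ne h7).1
          simp only [hS] at h8
          rw [hQ.lam1, one_mul, zero_add, Nat.mod_mod]
          refine Finset.mem_sdiff.2 ⟨?_, h8.2⟩
          unfold rs
          exact Finset.mem_image.2 ⟨n, hn', rfl⟩)
        rwa [mul_one] at h5
      linarith
    have hEle : Err Q M L OB (1 / s) (1 / M) ≤ Err Q M L OB 2 (1 / M) := by
      refine Err_mono hQ (by positivity) ?_ le_rfl
      rw [div_le_iff₀ hspos]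
      linarith
    have hlog : -Real.log s ≤ 2 * (1 - s) := by
      have h1 := Real.log_le_sub_one_of_pos (inv_pos.2 hspos)
      rw [Real.log_inv] at h1
      have h2 : s⁻¹ ≤ 1 + 2 * (1 - s) := by
        rw [inv_le_comm₀ hspos (by nlinarith)]
        rw [inv_eq_one_div, div_le_iff₀ (by nlinarith)]
        nlinarith
      linarith
    linarith

/-- **lower bound for the atoms** -/
theorem atom {L : ℝ} (hm : Mx Q N A0 d a M x L) {OB : ℝ} (hOB : ∀ S, Om Q d S ≤ OB)
    (hMM : 2 * Q.Mm ≤ M) {p : ℕ} (hp : p ∈ Q.W) {g : ℝ} (hg1 : g ≤ 1)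
    (hom : ∀ S : Finset ℕ, ∀ b ∈ S, b < p → Q.om p d S + g ≤ Q.om p d (S \ {b}))
    {b : ℕ} (hb : b ∈ rs (sp x M) p) :
    g / 2 ≤ ms x M (fun n => Gd Q M x n ∧ n % p = b) + Real.exp (-(Q.D0 / 4)) +
      Err Q M L OB 2 (1 / M) := by
  have hbp : b < p := by
    unfold rs at hb
    obtain ⟨n, _, rfl⟩ := Finset.mem_image.1 hb
    exact Nat.mod_lt _ (hm.ok.hW p hp)
  have h1 := removal hm hOB hMM hp {b} hg1 (hom _ b hb hbp)
  simpa only [Finset.mem_singleton] using h1

end Vale.Agent.P042.H305
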