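import Vale.Agent.P042.H305.ConsP
set_option autoImplicit false

/-!
P042 [D]: upper bound for the classes modulo the primes at the maximiser, by bootstrapping.
-/

namespace Vale.Agent.P042.H305

open Finset Vale.Agent.P042.H599 Vale.Agent.P042.H945

variable {Q : Par ℕ} {N d M : ℕ} {A0 : Finset ℤ} {a : ℤ} {x y : ℕ → ℝ}

theorem cm_eq_ms (p b : ℕ) : cm x 1 M p b = ms x M (fun n => n % p = b) := by
  classical
  unfold cm ms SM
  refine Finset.sum_congr rfl fun i _ => ?_
  by_cases h : (1 + i) % p = b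
  · simp [h]
  · simp [h]

theorem lam_ge (hQ : Ok Q) {D : ℕ} (hD : 1 ≤ D) (s : Finset ℕ) (hs : ∀ p ∈ s, p.Prime)
    (hd : ∏ p ∈ s, p ∣ D) : ∑ p ∈ s, Real.log (Q.lam p) ≤ Real.log (Q.lam D) := by
  have h1 : ∀ t : Finset ℕ, t ⊆ s → Q.lam (∏ p ∈ t, p) = ∏ p ∈ t, Q.lam p ∧
      1 ≤ ∏ p ∈ t, p := by
    intro t
    induction t using Finset.induction_on with
    | empty =>
      intro _
      simp only [Finset.prod_empty]
      exact ⟨hQ.lam1, le_rfl⟩
    | insert p t hp ih =>
      intro ht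
      obtain ⟨h2, h3⟩ := ih ((Finset.subset_insert _ _).trans ht)
      rw [Finset.prod_insert hp, Finset.prod_insert hp]
      have h4 := (hs p (ht (Finset.mem_insert_self _ _))).one_lt.le
      refine ⟨?_, Nat.mul_pos h4 h3⟩
      rw [hQ.lamm p _ h4 h3, h2]
  obtain ⟨h2, h3⟩ := h1 s (Finset.Subset.refl _)
  obtain ⟨e, rfl⟩ := hd
  have he : 1 ≤ e := by
    rcases Nat.eq_zero_or_pos e with h | h
    · rw [h, mul_zero] at hD; omega
    · exact h
  have h5 : ∀ p ∈ s, (Q.lam p : ℝ) ≠ 0 := fun p hp => by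
    exact_mod_cast (hQ.lam0 p (hs p hp).one_lt.le).ne'
  rw [← Real.log_prod h5, hQ.lamm _ _ h3 he, h2]
  refine Real.log_le_log (Finset.prod_pos fun p hp => ?_) ?_
  · exact_mod_cast hQ.lam0 p (hs p hp).one_lt.le
  · push_cast
    have h6 : (1 : ℝ) ≤ Q.lam e := by exact_mod_cast hQ.lam0 e he
    have h7 : (0 : ℝ) ≤ ∏ p ∈ s, (Q.lam p : ℝ) := Finset.prod_nonneg fun p _ => Nat.cast_nonneg _
    nlinarith

/-- the total error at the prime `p` -/
noncomputable def e1 (Q : Par ℕ) (M : ℕ) (L OB : ℝ) (p : ℕ) : ℝ :=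
  2 * p * Real.exp (-(Q.D0 / 4)) + Err Q M L OB (2 * p) (Q.lam p / M)

/-- **upper bound for the classes modulo a prime** -/
theorem supB {xi : ℝ} (hP : PrimePar Q xi) {L : ℝ} (hm : Mx Q N A0 d a M x L)
    {OB : ℝ} (hOB : ∀ S, Om Q d S ≤ OB) {p : ℕ} (hp : p ∈ Q.W) {cp : ℝ}
    (hcp : p ∈ Q.I → Q.c p ≤ cp) (hcp0 : 0 ≤ cp) (hc : cp + xi ≤ 1 / 2)
    (hpD : p * Real.exp (-(Q.D0 / 4)) ≤ 1 / 2) (hpM : 2 * Q.Mm * Q.lam p ≤ M)
    {b : ℕ} (hb : b < p) :
    p * cm x 1 M p b ≤ Real.exp (2 * (Q.eta * Real.log (Q.lam p) + e1 Q M L OB p)) := by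
  classical
  have hQ := hm.ok
  have hx := hm.mx.1.law
  have hpr := hP.pr p hp
  have hp0 : 0 < p := hpr.pos
  have hp' : (0 : ℝ) < p := by exact_mod_cast hp0
  have hM0 : 0 < M := hx.pos
  have hM' : (0 : ℝ) < M := by exact_mod_cast hM0
  have hxi := hP.xi0
  have hOB0 := OB_nonneg hm hOB
  have hexp := hm.hD2
  obtain ⟨b0, hb0, hmax⟩ := Finset.exists_max_image (range p) (fun b => cm x 1 M p b)
    ⟨0, mem_range.2 hp0⟩
  have hb0' := mem_range.1 hb0
  -- the largest class
  have h1p : 1 ≤ p * cm x 1 M p b0 := by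
    have h1 := sum_cm hx.sum hp0
    have h2 := Finset.sum_le_sum (f := fun b => cm x 1 M p b) (g := fun _ => cm x 1 M p b0) hmax
    rw [Finset.sum_const, card_range, nsmul_eq_mul, h1] at h2
    exact h2
  have hcm0 : 0 < cm x 1 M p b0 := by
    by_contra h
    have := mul_nonpos_of_nonneg_of_nonpos hp'.le (not_lt.1 h)
    linarith
  obtain ⟨s, hs⟩ : ∃ s, s = Real.log (p * cm x 1 M p b0) := ⟨_, rfl⟩
  have hs0 : 0 ≤ s := by rw [hs]; exact Real.log_nonneg h1p
  have hexps : Real.exp s = p * cm x 1 M p b0 := by rw [hs, Real.exp_log (by positivity)]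
  have hall : ∀ b < p, p * cm x 1 M p b ≤ Real.exp s := by
    intro b hb
    rw [hexps]
    exact mul_le_mul_of_nonneg_left (hmax b (mem_range.2 hb)) hp'.le
  -- the event
  set S : ℕ → Prop := fun n => Gd Q M x n ∧ 1 ≤ n ∧ n ≤ M ∧ n % p = b0 with hS
  have hmS1 : cm x 1 M p b0 - Real.exp (-(Q.D0 / 4)) ≤ ms x M S := by
    have h2 : cm x 1 M p b0 ≤ ms x M S + ms x M (fun n => ¬ Gd Q M x n) := by
      rw [cm_eq_ms]
      unfold ms
      rw [← SM_add]
      refine SM_le fun i hi => ?_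
      have hn := hx.nonneg i hi
      by_cases h3 : (1 + i) % p = b0
      · rw [if_pos h3]
        by_cases h4 : Gd Q M x (1 + i)
        · have h5 : S (1 + i) := ⟨h4, by omega, by omega, h3⟩
          rw [if_pos h5]
          split_ifs <;> linarith
        · rw [if_pos h4]
          split_ifs <;> linarith
      · rw [if_neg h3]
        split_ifs <;> linarith
    have h3 := bad_small hm
    linarith
  have hpm : p * cm x 1 M p b0 - p * Real.exp (-(Q.D0 / 4)) ≤ p * ms x M S := by
    rw [← mul_sub]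
    exact mul_le_mul_of_nonneg_left hmS1 hp'.le
  have hpm2 : 1 / 2 ≤ p * ms x M S := by linarith
  have hpos : 0 < ms x M S := by
    by_contra h
    have := mul_nonpos_of_nonneg_of_nonpos hp'.le (not_lt.1 h)
    linarith
  have h1 := cell_U hP hm (D := p) (w := b0) (u := 1) (v := M) hp0 le_rfl le_rfl (by
      rwa [show M + 1 - 1 = M by omega]) (S := S) (fun n hn => hn) (by
      rw [show M + 1 - 1 = M by omega, ← mul_assoc]
      exact mul_le_mul_of_nonneg_right (by linarith) hM'.le) hOB (U := fun _ => s)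
      (V := fun _ => xi * s) (fun _ _ => hs0) (fun q hq hqp n hn => by
        have h2 : q = p := (Nat.prime_dvd_prime_iff_eq (hP.pr q hq) hpr).1 hqp
        rw [h2]
        exact hall _ (Nat.mod_lt _ hp0)) (fun q hq hqp => by
        have h2 : q = p := (Nat.prime_dvd_prime_iff_eq (hP.pr q hq) hpr).1 hqp
        rw [h2, hP.om p hp]
        refine mul_le_mul_of_nonneg_left ?_ hxi
        have h3 := missing_le hx hp0 hall
        have h4 := Real.add_one_le_exp (-s)
        linarith)
  rw [show M + 1 - 1 = M by omega] at h1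
  have h2 : (0 : ℝ) ≤ ∑ q ∈ Q.I with ¬ q ∣ p, Q.c q * klc (rst x M S) x M q := by
    refine Finset.sum_nonneg fun q hq => ?_
    have hq' := (Finset.mem_filter.1 hq).1
    refine mul_nonneg (hQ.hc q hq') (klc_nonneg (rst_law hx hpos) hx (fun i _ h0 => ?_)
      (hP.pr q (hP.I hq')).pos)
    by_contra h3
    exact (rst_ne h3).2 h0
  have h3 : ∑ q ∈ Q.W with q ∣ p, xi * s = xi * s := by
    have : Q.W.filter (fun q => q ∣ p) = {p} := by
      ext q
      simp only [Finset.mem_filter, Finset.mem_singleton]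
      constructor
      · rintro ⟨h4, h5⟩
        exact (Nat.prime_dvd_prime_iff_eq (hP.pr q h4) hpr).1 h5
      · rintro rfl
        exact ⟨hp, dvd_refl _⟩
    rw [this, Finset.sum_singleton]
  have h4 : ∑ q ∈ Q.I with q ∣ p, Q.c q * s ≤ cp * s := by
    by_cases hpI : p ∈ Q.I
    · have : Q.I.filter (fun q => q ∣ p) = {p} := by
        ext q
        simp only [Finset.mem_filter, Finset.mem_singleton]
        constructor
        · rintro ⟨h4, h5⟩
          exact (Nat.prime_dvd_prime_iff_eq (hP.pr q (hP.I h4)) hpr).1 h5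
        · rintro rfl
          exact ⟨hpI, dvd_refl _⟩
      rw [this, Finset.sum_singleton]
      exact mul_le_mul_of_nonneg_right (hcp hpI) hs0
    · have : Q.I.filter (fun q => q ∣ p) = ∅ := by
        refine Finset.filter_eq_empty_iff.2 fun q hq hqp => hpI ?_
        rwa [← (Nat.prime_dvd_prime_iff_eq (hP.pr q (hP.I hq)) hpr).1 hqp]
      rw [this, Finset.sum_empty]
      positivity
  have h5 : p * ms x M S * M / (M : ℝ) = p * ms x M S := by field_simp
  rw [h3, sub_self, zero_add, h5] at h1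
  have h6 : s - 2 * p * Real.exp (-(Q.D0 / 4)) ≤ Real.log (p * ms x M S) := by
    obtain ⟨t, ht⟩ : ∃ t, t = p * Real.exp (-(Q.D0 / 4)) := ⟨_, rfl⟩
    have ht0 : 0 ≤ t := by rw [ht]; positivity
    rw [← ht] at hpD hpm
    have h7 : Real.exp (s - 2 * t) ≤ p * ms x M S := by
      have h8 : Real.exp (s - 2 * t) = Real.exp s * Real.exp (-(2 * t)) := by
        rw [← Real.exp_add]; congr 1
      have h9 : Real.exp (-(2 * t)) ≤ 1 - t := by
        have h10 := Real.add_one_le_exp (2 * t)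
        rw [Real.exp_neg, inv_le_comm₀ (Real.exp_pos _) (by linarith)]
        refine le_trans ?_ h10
        rw [inv_eq_one_div, div_le_iff₀ (by linarith)]
        nlinarith
      rw [h8, hexps]
      have h11 : p * cm x 1 M p b0 * Real.exp (-(2 * t)) ≤ p * cm x 1 M p b0 * (1 - t) :=
        mul_le_mul_of_nonneg_left h9 (by linarith)
      nlinarith
    have h8 := Real.log_le_log (Real.exp_pos _) h7
    rw [Real.log_exp, ht] at h8
    linarith
  have hEle : Err Q M L OB (1 / ms x M S) (Q.lam p / M) ≤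
      Err Q M L OB (2 * p) (Q.lam p / M) := by
    refine Err_mono hQ (by positivity) ?_ le_rfl
    rw [div_le_iff₀ hpos]
    linarith
  have h7 : s ≤ 2 * (Q.eta * Real.log (Q.lam p) + e1 Q M L OB p) := by
    unfold e1
    nlinarith
  exact (hall b hb).trans (Real.exp_le_exp.2 h7)

end Vale.Agent.P042.H305
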