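import Vale.Agent.P042.H305.Cons
set_option autoImplicit false

/-!
P042 [D]: consequences of the master inequality when the moduli are primes and the support terms
count the missing classes: upper bound for the classes modulo a prime, cells and windows.
-/

namespace Vale.Agent.P042.H305

open Finset Vale.Agent.P042.H599 Vale.Agent.P042.H945

variable {Q : Par ℕ} {N d M : ℕ} {A0 : Finset ℤ} {a : ℤ} {x y : ℕ → ℝ}

/-- the moduli are primes, the support terms count the missing classes -/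
structure PrimePar (Q : Par ℕ) (xi : ℝ) : Prop where
  I : Q.I ⊆ Q.W
  m : ∀ p ∈ Q.I, Q.m p = p
  pr : ∀ p ∈ Q.W, p.Prime
  xi0 : 0 ≤ xi
  om : ∀ p ∈ Q.W, ∀ d S, Q.om p d S = xi * (((range p \ S).card : ℝ) / p)

/-- the divisor of the modulus which is prime to `D` -/
def mq (D p : ℕ) : ℕ := if p ∣ D then 1 else p

theorem mq_ok {xi : ℝ} (hP : PrimePar Q xi) (D : ℕ) :
    ∀ p ∈ Q.I, 0 < mq D p ∧ mq D p ∣ Q.m p ∧ Nat.Coprime (mq D p) D := by
  intro p hp
  have hpr := hP.pr p (hP.I hp)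
  unfold mq
  rw [hP.m p hp]
  split_ifs with h
  · exact ⟨one_pos, one_dvd _, Nat.coprime_one_left _⟩
  · exact ⟨hpr.pos, dvd_refl _, (Nat.Prime.coprime_iff_not_dvd hpr).2 h⟩

theorem cm_one (hx : Law x 1 M) (n : ℕ) : cm x 1 M 1 (n % 1) = 1 := by
  have h := sum_cm hx.sum (p := 1) one_pos
  rw [Finset.sum_range_one] at h
  rw [Nat.mod_one]
  exact h

theorem lc_one (hx : Law x 1 M) (n : ℕ) : lc x M 1 n = 0 := by
  unfold lc
  rw [cm_one hx]
  simp

/-- the correction term -/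
theorem SC_le {xi : ℝ} (hP : PrimePar Q xi) (hQ : Ok Q) (hx : Law x 1 M) (hy : Law y 1 M) {D : ℕ}
    {U : ℕ → ℝ} (hU0 : ∀ p ∈ Q.W, 0 ≤ U p)
    (hU : ∀ p ∈ Q.W, p ∣ D → ∀ n, y n ≠ 0 → p * cm x 1 M p (n % p) ≤ Real.exp (U p)) :
    SC Q M x (mq D) y ≤ ∑ p ∈ Q.I with p ∣ D, Q.c p * U p := by
  unfold SC
  rw [Finset.sum_filter]
  refine Finset.sum_le_sum fun p hp => ?_
  have hpr := hP.pr p (hP.I hp)
  by_cases h : p ∣ D
  · rw [if_pos h]
    refine mul_le_mul_of_nonneg_left ?_ (hQ.hc p hp)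
    have h1 : SM M (fun n => y n * (lc x M (Q.m p) n - lc x M (mq D p) n)) ≤
        SM M (fun n => y n * U p) := by
      refine SM_le fun i hi => ?_
      rcases eq_or_ne (y (1 + i)) 0 with h0 | h0
      · rw [h0, zero_mul, zero_mul]
      · refine mul_le_mul_of_nonneg_left ?_ (hy.nonneg i hi)
        have h2 : mq D p = 1 := by unfold mq; rw [if_pos h]
        rw [h2, lc_one hx, sub_zero, hP.m p hp]
        unfold lc
        have h3 := hU p (hP.I hp) h _ h0
        have h4 : 0 ≤ (p : ℝ) * cm x 1 M p ((1 + i) % p) :=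
          mul_nonneg (Nat.cast_nonneg _) (cm_nonneg hx.nonneg _ _)
        rcases h4.eq_or_lt with h5 | h5
        · rw [← h5, Real.log_zero]
          exact hU0 p (hP.I hp)
        · have h6 := Real.log_le_log h5 h3
          rwa [Real.log_exp] at h6
    rw [SM_const_mul, law_one hy, one_mul] at h1
    exact h1
  · rw [if_neg h]
    have h2 : mq D p = p := by unfold mq; rw [if_neg h]
    rw [h2, hP.m p hp]
    have : SM M (fun n => y n * (lc x M p n - lc x M p n)) = 0 := by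
      unfold SM
      exact Finset.sum_eq_zero fun i _ => by simp
    rw [this, mul_zero]

/-- the loss in the support terms -/
theorem Om_sub_le {xi : ℝ} (hP : PrimePar Q xi) (hQ : Ok Q) (hd : 1 ≤ d) {D : ℕ}
    (hs : sp y M ⊆ sp x M) :
    Om Q d (sp x M) - Omc Q d D M y ≤ ∑ p ∈ Q.W with p ∣ D, Q.om p d (rs (sp x M) p) := by
  unfold Om Omc
  have h1 := Finset.sum_filter_add_sum_filter_not Q.W (fun p => p ∣ D)
    (fun p => Q.om p d (rs (sp x M) p))
  have h2 : ∑ p ∈ Q.W with ¬ p ∣ D, Q.om p d (rs (sp x M) p) ≤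
      ∑ p ∈ Q.W with Nat.Coprime p D, Q.om p d (rs (sp y M) p) := by
    have h3 : Q.W.filter (fun p => ¬ p ∣ D) = Q.W.filter (fun p => Nat.Coprime p D) :=
      Finset.filter_congr fun p hp => ((Nat.Prime.coprime_iff_not_dvd (hP.pr p hp)).symm)
    rw [h3]
    exact Finset.sum_le_sum fun p hp => om_anti hQ hd (Finset.mem_filter.1 hp).1 hs
  linarith

/-- few missing classes -/
theorem missing_le (hx : Law x 1 M) {p : ℕ} (hp : 0 < p) {u : ℝ}
    (hU : ∀ b < p, p * cm x 1 M p b ≤ Real.exp u) :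
    ((range p \ rs (sp x M) p).card : ℝ) / p ≤ 1 - Real.exp (-u) := by
  have hp' : (0 : ℝ) < p := by exact_mod_cast hp
  have h1 := sum_cm hx.sum hp
  have hsub : rs (sp x M) p ⊆ range p := by
    intro b hb
    unfold rs at hb
    obtain ⟨n, _, rfl⟩ := Finset.mem_image.1 hb
    exact mem_range.2 (Nat.mod_lt _ hp)
  have h2 : ∑ b ∈ rs (sp x M) p, cm x 1 M p b = ∑ b ∈ range p, cm x 1 M p b := by
    refine Finset.sum_subset hsub fun b _ hb => ?_
    unfold cm
    refine Finset.sum_eq_zero fun i hi => ?_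
    split_ifs with h3
    · by_contra h4
      refine hb ?_
      unfold rs sp
      refine Finset.mem_image.2 ⟨1 + i, Finset.mem_filter.2 ⟨Finset.mem_Icc.2 ?_, h4⟩, h3⟩
      have := mem_range.1 hi
      omega
    · rfl
  have h3 : (p : ℝ) * 1 ≤ ((rs (sp x M) p).card : ℝ) * Real.exp u := by
    rw [← h1, ← h2, Finset.mul_sum, ← nsmul_eq_mul, ← Finset.sum_const]
    exact Finset.sum_le_sum fun b hb => hU b (mem_range.1 (hsub hb))
  have h4 : ((range p \ rs (sp x M) p).card : ℝ) = p - (rs (sp x M) p).card := by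
    rw [Finset.card_sdiff_of_subset hsub, card_range, Nat.cast_sub]
    have := Finset.card_le_card hsub
    rwa [card_range] at this
  rw [h4, div_le_iff₀ hp']
  have h5 : p * Real.exp (-u) ≤ ((rs (sp x M) p).card : ℝ) := by
    have h6 := mul_le_mul_of_nonneg_right h3 (Real.exp_pos (-u)).le
    rw [mul_assoc, mul_assoc, ← Real.exp_add, add_neg_cancel, Real.exp_zero, mul_one, one_mul] at h6
    exact h6
  linarith

theorem sp_rst_sub {S : ℕ → Prop} : sp (rst x M S) M ⊆ sp x M := by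
  intro n hn
  unfold sp at hn ⊢
  obtain ⟨h3, h4⟩ := Finset.mem_filter.1 hn
  exact Finset.mem_filter.2 ⟨h3, (rst_ne h4).2⟩

/-- **the inequality of the cells**, with upper bounds `U p` for the classes modulo `p ∣ D` -/
theorem cell_U {xi : ℝ} (hP : PrimePar Q xi) {L : ℝ} (hm : Mx Q N A0 d a M x L) {D w u v : ℕ}
    (hD : 1 ≤ D) (hu : 1 ≤ u) (hv : v ≤ M) (huv : 2 * Q.Mm * Q.lam D ≤ v + 1 - u)
    {S : ℕ → Prop} (hS : ∀ n, S n → Gd Q M x n ∧ u ≤ n ∧ n ≤ v ∧ n % D = w)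
    (hmS : Real.exp (-(Q.D0 / 4)) * ((v + 1 - u : ℕ) : ℝ) ≤ D * (ms x M S * M))
    {OB : ℝ} (hOB : ∀ S, Om Q d S ≤ OB) {U V : ℕ → ℝ} (hU0 : ∀ p ∈ Q.W, 0 ≤ U p)
    (hU : ∀ p ∈ Q.W, p ∣ D → ∀ n, S n → p * cm x 1 M p (n % p) ≤ Real.exp (U p))
    (hV : ∀ p ∈ Q.W, p ∣ D → Q.om p d (rs (sp x M) p) ≤ V p) :
    Real.log (D * ms x M S * M / ((v + 1 - u : ℕ) : ℝ)) +
        ∑ p ∈ Q.I with ¬ p ∣ D, Q.c p * klc (rst x M S) x M p ≤
    Q.eta * (Real.log M - Real.log ((v + 1 - u : ℕ) : ℝ) + Real.log (Q.lam D)) +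
      ∑ p ∈ Q.I with p ∣ D, Q.c p * U p + ∑ p ∈ Q.W with p ∣ D, V p +
      Err Q M L OB (1 / ms x M S) (Q.lam D / ((v + 1 - u : ℕ) : ℝ)) := by
  have hQ := hm.ok
  have hx := hm.mx.1.law
  have hVp : 0 < v + 1 - u := by
    have h1 := hQ.lam0 D hD
    have h2 := hQ.Mm1
    have : 0 < 2 * Q.Mm * Q.lam D := by positivity
    omega
  have hV' : (0 : ℝ) < ((v + 1 - u : ℕ) : ℝ) := by exact_mod_cast hVp
  have hM' : (0 : ℝ) < M := by exact_mod_cast hx.pos
  have hD' : (0 : ℝ) < D := by exact_mod_cast hD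
  have hpos : 0 < ms x M S := by
    have h1 : 0 < (D : ℝ) * (ms x M S * M) := lt_of_lt_of_le (by positivity) hmS
    have h2 : 0 ≤ ms x M S := ms_nonneg hx S
    rcases h2.eq_or_lt with h3 | h3
    · rw [← h3] at h1; simp at h1
    · exact h3
  have hlaw := rst_law hx hpos
  have hac : AC (rst x M S) x M := fun i _ h0 => by
    by_contra h1
    exact (rst_ne h1).2 h0
  have h1 := cell_event hm hD hu hv huv hS hmS hOB (mq D) (mq_ok hP D)
  have h2 := SC_le hP hQ hx hlaw (D := D) hU0 (fun p hp hpD n hn =>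
    hU p hp hpD n (rst_ne hn).1)
  have h3 := (Om_sub_le (D := D) hP hQ hm.mx.1.hd (sp_rst_sub (x := x) (M := M) (S := S))).trans
    (Finset.sum_le_sum (g := fun p => V p) fun p hp =>
      hV p (Finset.mem_filter.1 hp).1 (Finset.mem_filter.1 hp).2)
  have h4 : ∑ p ∈ Q.I with ¬ p ∣ D, Q.c p * klc (rst x M S) x M p ≤
      KC Q M x (mq D) (rst x M S) := by
    unfold KC
    rw [Finset.sum_filter]
    refine Finset.sum_le_sum fun p hp => ?_
    have hpr := hP.pr p (hP.I hp)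
    by_cases h : p ∣ D
    · rw [if_neg (not_not.2 h)]
      exact mul_nonneg (hQ.hc p hp) (klc_nonneg hlaw hx hac ((mq_ok hP D) p hp).1)
    · rw [if_pos h]
      unfold mq
      rw [if_neg h]
  have h5 : Real.log (D * ms x M S * M / ((v + 1 - u : ℕ) : ℝ)) =
      Real.log D + Real.log (ms x M S) + Real.log M - Real.log ((v + 1 - u : ℕ) : ℝ) := by
    rw [Real.log_div (by positivity) hV'.ne', Real.log_mul (by positivity) hM'.ne',
      Real.log_mul hD'.ne' hpos.ne']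
  rw [h5]
  have h6 : Q.eta * (Real.log M - Real.log ((v + 1 - u : ℕ) : ℝ) + Real.log (Q.lam D)) =
      Q.eta * (Real.log M - Real.log ((v + 1 - u : ℕ) : ℝ)) + Q.eta * Real.log (Q.lam D) := by
    ring
  have h7 : (1 - Q.eta) * (Real.log M - Real.log ((v + 1 - u : ℕ) : ℝ)) =
      (Real.log M - Real.log ((v + 1 - u : ℕ) : ℝ)) -
      Q.eta * (Real.log M - Real.log ((v + 1 - u : ℕ) : ℝ)) := by ring
  rw [h6]
  rw [h7] at h1
  linarith

end Vale.Agent.P042.H305
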