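import Vale.Agent.P042.H305.ConsB
set_option autoImplicit false

/-!
P042 [D]: the inequality of the cells with all losses inserted, and its form for the law
`mu` = the maximiser restricted to the part far from the cap.
-/

namespace Vale.Agent.P042.H305

open Finset Vale.Agent.P042.H599 Vale.Agent.P042.H945

variable {Q : Par ℕ} {N d M : ℕ} {A0 : Finset ℤ} {a : ℤ} {x y : ℕ → ℝ}

/-- numerical hypotheses: `c` bounds the coefficients, `e` the errors at the primes of `W` -/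
structure Num (Q : Par ℕ) (M : ℕ) (L OB xi c e : ℝ) : Prop where
  c0 : 0 ≤ c
  cI : ∀ p ∈ Q.I, Q.c p ≤ c
  cx : c + xi ≤ 1 / 4
  e0 : 0 ≤ e
  small : ∀ p ∈ Q.W, p * Real.exp (-(Q.D0 / 4)) ≤ 1 / 2
  big : ∀ p ∈ Q.W, 2 * Q.Mm * Q.lam p ≤ M
  e1 : ∀ p ∈ Q.W, e1 Q M L OB p ≤ e

theorem supB' {xi : ℝ} (hP : PrimePar Q xi) {L : ℝ} (hm : Mx Q N A0 d a M x L)
    {OB : ℝ} (hOB : ∀ S, Om Q d S ≤ OB) {c e : ℝ} (hN : Num Q M L OB xi c e) {p : ℕ}
    (hp : p ∈ Q.W) {b : ℕ} (hb : b < p) :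
    p * cm x 1 M p b ≤ Real.exp (2 * (Q.eta * Real.log (Q.lam p) + e)) := by
  refine (supB hP hm hOB hp (fun h => hN.cI p h) hN.c0 (by linarith [hN.cx]) (hN.small p hp)
    (hN.big p hp) hb).trans (Real.exp_le_exp.2 ?_)
  have := hN.e1 p hp
  linarith

/-- **the inequality of the cells** -/
theorem cellQ {xi : ℝ} (hP : PrimePar Q xi) {L : ℝ} (hm : Mx Q N A0 d a M x L)
    {OB : ℝ} (hOB : ∀ S, Om Q d S ≤ OB) {c e : ℝ} (hN : Num Q M L OB xi c e) {D w u v : ℕ}
    (hD : 1 ≤ D) (hu : 1 ≤ u) (hv : v ≤ M) (huv : 2 * Q.Mm * Q.lam D ≤ v + 1 - u)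
    {S : ℕ → Prop} (hS : ∀ n, S n → Gd Q M x n ∧ u ≤ n ∧ n ≤ v ∧ n % D = w)
    (hmS : Real.exp (-(Q.D0 / 4)) * ((v + 1 - u : ℕ) : ℝ) ≤ D * (ms x M S * M)) :
    Real.log (D * ms x M S * M / ((v + 1 - u : ℕ) : ℝ)) +
        ∑ p ∈ Q.I with ¬ p ∣ D, Q.c p * klc (rst x M S) x M p ≤
    Q.eta * (Real.log M - Real.log ((v + 1 - u : ℕ) : ℝ)) +
      3 / 2 * (Q.eta * Real.log (Q.lam D)) +
      1 / 2 * (e * ((Q.W.filter (fun p => p ∣ D)).card : ℝ)) +
      Err Q M L OB (1 / ms x M S) (Q.lam D / ((v + 1 - u : ℕ) : ℝ)) := by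
  have hQ := hm.ok
  have hx := hm.mx.1.law
  have he0 := hN.e0
  have hxi := hP.xi0
  have hc0 := hN.c0
  have hlam : ∀ p ∈ Q.W, 0 ≤ Real.log (Q.lam p) := fun p hp =>
    Real.log_nonneg (by exact_mod_cast hQ.lam0 p (hP.pr p hp).pos)
  have hη := hQ.eta0
  obtain ⟨U, hU⟩ : ∃ U : ℕ → ℝ, U = fun p => 2 * (Q.eta * Real.log (Q.lam p) + e) := ⟨_, rfl⟩
  have hU0 : ∀ p ∈ Q.W, 0 ≤ U p := fun p hp => by
    rw [hU]
    have := hlam p hp
    positivity
  have h1 := cell_U hP hm hD hu hv huv hS hmS hOB (U := U) (V := fun p => xi * U p) hU0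
    (fun p hp _ n _ => by
      rw [hU]
      exact supB' hP hm hOB hN hp (Nat.mod_lt _ (hP.pr p hp).pos))
    (fun p hp _ => by
      rw [hP.om p hp]
      refine mul_le_mul_of_nonneg_left ?_ hxi
      have h3 := missing_le hx (hP.pr p hp).pos (u := U p) (fun b hb => by
        rw [hU]
        exact supB' hP hm hOB hN hp hb)
      have h4 := Real.add_one_le_exp (-U p)
      linarith)
  have h2 : ∑ p ∈ Q.I with p ∣ D, Q.c p * U p ≤ ∑ p ∈ Q.W with p ∣ D, c * U p := by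
    refine (Finset.sum_le_sum (g := fun p => c * U p) fun p hp => ?_).trans
      (Finset.sum_le_sum_of_subset_of_nonneg ?_ fun p hp _ => ?_)
    · have hp' := (Finset.mem_filter.1 hp).1
      exact mul_le_mul_of_nonneg_right (hN.cI p hp') (hU0 p (hP.I hp'))
    · exact Finset.filter_subset_filter _ hP.I
    · exact mul_nonneg hc0 (hU0 p (Finset.mem_filter.1 hp).1)
  have h3 : ∑ p ∈ Q.W with p ∣ D, c * U p + ∑ p ∈ Q.W with p ∣ D, xi * U p =
      (c + xi) * ∑ p ∈ Q.W with p ∣ D, U p := by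
    rw [add_mul, Finset.mul_sum, Finset.mul_sum]
  have h4 : ∑ p ∈ Q.W with p ∣ D, U p = 2 * (Q.eta * ∑ p ∈ Q.W with p ∣ D, Real.log (Q.lam p) +
      e * ((Q.W.filter (fun p => p ∣ D)).card : ℝ)) := by
    rw [hU]
    simp only [mul_add, Finset.sum_add_distrib, Finset.mul_sum, Finset.sum_const, nsmul_eq_mul]
    ring
  have h5 : ∑ p ∈ Q.W with p ∣ D, Real.log (Q.lam p) ≤ Real.log (Q.lam D) := by
    refine lam_ge hQ hD _ (fun p hp => hP.pr p (Finset.mem_filter.1 hp).1) ?_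
    exact Finset.prod_primes_dvd D (fun p hp => (hP.pr p (Finset.mem_filter.1 hp).1).prime)
      (fun p hp => (Finset.mem_filter.1 hp).2)
  have h6 : 0 ≤ ∑ p ∈ Q.W with p ∣ D, U p :=
    Finset.sum_nonneg fun p hp => hU0 p (Finset.mem_filter.1 hp).1
  have h7 : (c + xi) * ∑ p ∈ Q.W with p ∣ D, U p ≤ 1 / 4 * ∑ p ∈ Q.W with p ∣ D, U p :=
    mul_le_mul_of_nonneg_right hN.cx h6
  have h8 : Q.eta * ∑ p ∈ Q.W with p ∣ D, Real.log (Q.lam p) ≤
      Q.eta * Real.log (Q.lam D) := mul_le_mul_of_nonneg_left h5 hη.le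
  have h9 : Q.eta * (Real.log M - Real.log ((v + 1 - u : ℕ) : ℝ) + Real.log (Q.lam D)) =
      Q.eta * (Real.log M - Real.log ((v + 1 - u : ℕ) : ℝ)) + Q.eta * Real.log (Q.lam D) := by
    ring
  rw [h9] at h1
  linarith

/-- the law far from the cap -/
noncomputable def mug (Q : Par ℕ) (M : ℕ) (x : ℕ → ℝ) : ℕ → ℝ := rst x M (Gd Q M x)

theorem bet {L : ℝ} (hm : Mx Q N A0 d a M x L) :
    1 - Real.exp (-(Q.D0 / 4)) ≤ ms x M (Gd Q M x) := by
  have h1 := ms_compl hm.mx.1.law (Gd Q M x)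
  have h2 := bad_small hm
  linarith

theorem bet2 {L : ℝ} (hm : Mx Q N A0 d a M x L) : 1 / 2 ≤ ms x M (Gd Q M x) := by
  have h1 := bet hm
  have h2 := hm.hD2
  linarith

theorem mug_law {L : ℝ} (hm : Mx Q N A0 d a M x L) : Law (mug Q M x) 1 M :=
  rst_law hm.mx.1.law (by linarith [bet2 hm])

theorem ms_mug {T : ℕ → Prop} :
    ms (mug Q M x) M T = ms x M (fun n => Gd Q M x n ∧ T n) / ms x M (Gd Q M x) := by
  classical
  have h0 : ∀ n, (if T n then mug Q M x n else 0) =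
      (if Gd Q M x n ∧ T n then x n else 0) * (ms x M (Gd Q M x))⁻¹ := by
    intro n
    unfold mug
    by_cases h1 : T n
    · rw [if_pos h1]
      by_cases h2 : Gd Q M x n
      · rw [rst_of h2, if_pos ⟨h2, h1⟩, div_eq_mul_inv]
      · rw [rst_not h2, if_neg (fun h => h2 h.1), zero_mul]
    · rw [if_neg h1, if_neg (fun h => h1 h.2), zero_mul]
  have h1 : ms (mug Q M x) M T = SM M (fun n => if T n then mug Q M x n else 0) := by
    unfold ms
    congr 1
  have h2 : ms x M (fun n => Gd Q M x n ∧ T n) =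
      SM M (fun n => if Gd Q M x n ∧ T n then x n else 0) := by
    unfold ms
    refine SM_congr fun i _ => ?_
    by_cases h : Gd Q M x (1 + i) ∧ T (1 + i)
    · rw [if_pos h, if_pos h]
    · rw [if_neg h, if_neg h]
  rw [h1, h2, div_eq_mul_inv, ← SM_const_mul]
  exact SM_congr fun i _ => h0 _

theorem rst_mug {L : ℝ} (hm : Mx Q N A0 d a M x L) {T : ℕ → Prop} :
    rst (mug Q M x) M T = rst x M (fun n => Gd Q M x n ∧ T n) := by
  funext n
  have hb : ms x M (Gd Q M x) ≠ 0 := by linarith [bet2 hm]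
  by_cases h1 : T n
  · rw [rst_of h1, ms_mug]
    by_cases h2 : Gd Q M x n
    · rw [rst_of (S := fun n => Gd Q M x n ∧ T n) ⟨h2, h1⟩]
      unfold mug
      rw [rst_of h2, div_div_div_cancel_right₀ hb]
    · rw [rst_not (S := fun n => Gd Q M x n ∧ T n) (fun h => h2 h.1)]
      unfold mug
      rw [rst_not h2, zero_div]
  · rw [rst_not h1, rst_not (S := fun n => Gd Q M x n ∧ T n) (fun h => h1 h.2)]

theorem mug_cap {L : ℝ} (hm : Mx Q N A0 d a M x L) (n : ℕ) :
    mug Q M x n ≤ 2 * Real.exp (Q.D0 / 2) / M := by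
  have hM' : (0 : ℝ) < M := by exact_mod_cast hm.mx.1.law.pos
  have hb := bet2 hm
  unfold mug
  by_cases h : Gd Q M x n
  · rw [rst_of h, div_le_div_iff₀ (by linarith) hM']
    have h1 : M * x n ≤ Real.exp (Q.D0 / 2) := h
    have h2 : Real.exp (Q.D0 / 2) ≤ 2 * Real.exp (Q.D0 / 2) * ms x M (Gd Q M x) := by
      have := Real.exp_pos (Q.D0 / 2)
      nlinarith
    linarith
  · rw [rst_not h]; positivity

/-- the classes of `mu` -/
theorem cm_mug (p b : ℕ) : cm (mug Q M x) 1 M p b =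
    ms x M (fun n => Gd Q M x n ∧ n % p = b) / ms x M (Gd Q M x) := by
  rw [cm_eq_ms, ms_mug]

/-- **atoms of `mu`** -/
theorem atom_mug {xi : ℝ} (hP : PrimePar Q xi) {L : ℝ} (hm : Mx Q N A0 d a M x L)
    {OB : ℝ} (hOB : ∀ S, Om Q d S ≤ OB) (hMM : 2 * Q.Mm ≤ M) (hxi1 : xi ≤ 1) {p : ℕ}
    (hp : p ∈ Q.W)
    (he : Real.exp (-(Q.D0 / 4)) + Err Q M L OB 2 (1 / M) ≤ xi / (4 * p)) {b : ℕ} :
    cm (mug Q M x) 1 M p b = 0 ∨ xi / 4 / p ≤ cm (mug Q M x) 1 M p b := by
  by_cases h0 : cm (mug Q M x) 1 M p b = 0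
  · exact Or.inl h0
  · right
    have hp1 : (1 : ℝ) ≤ p := by exact_mod_cast (hP.pr p hp).pos
    have hp' : (0 : ℝ) < p := by linarith
    have hbeta := bet2 hm
    have hb1 : ms x M (Gd Q M x) ≤ 1 := ms_le_one hm.mx.1.law _
    have hb : b ∈ rs (sp x M) p := by
      by_contra h1
      refine h0 ?_
      unfold cm
      refine Finset.sum_eq_zero fun i hi => ?_
      split_ifs with h3
      · by_contra h4
        unfold mug at h4
        refine h1 ?_
        unfold rs sp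
        refine Finset.mem_image.2 ⟨1 + i, Finset.mem_filter.2
          ⟨Finset.mem_Icc.2 ?_, (rst_ne h4).2⟩, h3⟩
        have := mem_range.1 hi
        omega
      · rfl
    have h1 := atom hm hOB hMM hp (g := xi / p) (by
      rw [div_le_one hp']
      linarith) (fun S c hc hcp => by
      rw [hP.om p hp, hP.om p hp]
      have h2 : range p \ (S \ {c}) = insert c (range p \ S) := by
        ext n
        simp only [Finset.mem_sdiff, Finset.mem_singleton, Finset.mem_insert, mem_range, not_and,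
          not_not]
        constructor
        · rintro ⟨h3, h4⟩
          by_cases h5 : n = c
          · exact Or.inl h5
          · exact Or.inr ⟨h3, fun h6 => h5 (h4 h6)⟩
        · rintro (h3 | h3)
          · rw [h3]
            exact ⟨hcp, fun _ => rfl⟩
          · exact ⟨h3.1, fun h6 => absurd h6 h3.2⟩
      have h3 : c ∉ range p \ S := fun h => (Finset.mem_sdiff.1 h).2 hc
      rw [h2, Finset.card_insert_of_notMem h3]
      push_cast
      apply le_of_eq
      ring) hb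
    have h2 : xi / 4 / p ≤ ms x M (fun n => Gd Q M x n ∧ n % p = b) := by
      have e1 : xi / p / 2 = xi / (4 * p) + xi / 4 / p := by field_simp; ring
      linarith
    rw [cm_mug, le_div_iff₀ (by linarith)]
    refine le_trans ?_ h2
    have h3 : 0 ≤ xi / 4 / p := by have := hP.xi0; positivity
    nlinarith

end Vale.Agent.P042.H305
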