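import Vale.Agent.P042.TT.CoreA

set_option autoImplicit false

/-!
Level inequality for weights dominated by an arbitrary equidistributed reference weight
(`liM`), and for a weight multiplied by a product of noised indicators of residue classes
(`coreM`).
-/

namespace Vale.Agent.P042.H305

open Finset Vale.Agent.P042.SS Vale.Agent.P042.TT Vale.Agent.P042

open LI LIG in
/-- `li2_holds` with a reference weight `L` instead of the constant one. -/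
theorem liM (P : Finset ℕ) (g : ℕ → ℕ) (W D m N1 : ℕ) (β ε : ℝ) (ρ b : ℕ → ℝ) (G L : ℤ → ℝ)
    (y : ℤ) (Fm : Finset (Finset ℕ)) (Qs : Finset ℕ)
    (hP : ∀ p ∈ P, p.Prime) (hW : 1 ≤ W) (hm : 2 ≤ m) (hβ : 0 < β) (hN1pos : 0 < N1)
    (hρ0 : ∀ p ∈ P, 0 ≤ ρ p) (hb : ∀ p ∈ P, 1 ≤ b p)
    (hρ : ∀ p ∈ P, 12 * m * ρ p * (1 + b p) ≤ 1)
    (hG0 : ∀ n, 0 ≤ G n) (hG1 : ∀ n, G n ≤ L n)
    (_hFmP : ∀ S ∈ Fm, S ⊆ P) (hFmd : ∀ S ∈ Fm, ∀ T, T ⊆ S → T ∈ Fm)
    (hFmD : ∀ S ∈ Fm, ∏ p ∈ S, p ^ g p ≤ D)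
    (hL : ∀ S ⊆ P, ∏ p ∈ S, p ^ g p ≤ D ^ (2 * m + 1) → ∀ x : ℤ,
      |mass L y N1 (W * ∏ p ∈ S, p ^ g p) x - N1 / ((W * ∏ p ∈ S, p ^ g p : ℕ) : ℝ)| ≤
        ε * (N1 / ((W * ∏ p ∈ S, p ^ g p : ℕ) : ℝ)))
    (hε : ε * (Fm.card : ℝ) ^ (2 * m) ≤ 1)
    (hmass : ∀ S ∈ Fm, ∀ x : ℤ, mass G y N1 (W * ∏ p ∈ S, p ^ g p) x ≤
      β * (∏ p ∈ S, b p) * (N1 / ((W * ∏ p ∈ S, p ^ g p : ℕ) : ℝ)))
    (hQs : ∀ q ∈ Qs, 1 ≤ q ∧ goodg P g W q ∧ Ug W q ∈ Fm) :
    ∑ q ∈ Qs, (∏ p ∈ Ug W q, ρ p) * enG G y N1 q ≤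
      (N1 : ℝ) ^ 2 * (2 * β ^ 2 * (1 + β ^ (-(1 / (m : ℝ))))) := by
  classical
  rcases Fm.eq_empty_or_nonempty with hemp | ⟨S1, hS1⟩
  · have hQe : Qs = ∅ := by
      rw [Finset.eq_empty_iff_forall_notMem]
      intro q hq
      have := (hQs q hq).2.2
      rw [hemp] at this
      exact Finset.notMem_empty _ this
    rw [hQe, Finset.sum_empty]
    have hrβ : 0 < β ^ (-(1 / (m : ℝ))) := Real.rpow_pos_of_pos hβ _
    positivity
  have hempty : ∅ ∈ Fm := hFmd S1 hS1 ∅ (Finset.empty_subset _)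
  have hD1 : 1 ≤ D := by
    have := hFmD ∅ hempty
    simpa using this
  have hPpos : 0 < bigG W P g := bigG_pos hP hW
  have : NeZero (bigG W P g) := ⟨hPpos.ne'⟩
  have hN1r : (0 : ℝ) < N1 := by exact_mod_cast hN1pos
  have hPr : (0 : ℝ) < bigG W P g := by exact_mod_cast hPpos
  set J := Finset.Ioc y (y + N1) with hJ
  have hmodpos : ∀ S : Finset P, 0 < W * ∏ p ∈ S, (p : ℕ) ^ g p := fun S =>
    Nat.mul_pos (by omega) (prodG_pos hP S)
  set Fs : Finset (Finset P) :=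
    Finset.univ.filter (fun S => S.map (Function.Embedding.subtype _) ∈ Fm) with hFs
  have hFsmem : ∀ S : Finset P, S ∈ Fs ↔ S.map (Function.Embedding.subtype _) ∈ Fm := by
    intro S
    rw [hFs, Finset.mem_filter]
    exact ⟨fun h => h.2, fun h => ⟨Finset.mem_univ _, h⟩⟩
  have hFsd : ∀ S ∈ Fs, ∀ T, T ⊆ S → T ∈ Fs := by
    intro S hS T hT
    rw [hFsmem] at hS ⊢
    exact hFmd _ hS _ (Finset.map_subset_map.2 hT)
  have hFscard : Fs.card ≤ Fm.card := by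
    apply Finset.card_le_card_of_injOn (fun S : Finset P => S.map (Function.Embedding.subtype _))
    · intro S hS
      exact (hFsmem S).1 hS
    · intro S _ S' _ h
      exact Finset.map_injective _ h
  have hFsD : ∀ S ∈ Fs, ∏ p ∈ S, (p : ℕ) ^ g p ≤ D := by
    intro S hS
    rw [← prod_map_sub]
    exact hFmD _ ((hFsmem S).1 hS)
  have hε0 : 0 ≤ ε := by
    have h := hL ∅ (Finset.empty_subset _) (by simpa using Nat.one_le_pow _ _ hD1) 0
    have h1 : (0 : ℝ) < N1 / ((W * ∏ p ∈ (∅ : Finset ℕ), p ^ g p : ℕ) : ℝ) := by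
      have : (0 : ℝ) < ((W * ∏ p ∈ (∅ : Finset ℕ), p ^ g p : ℕ) : ℝ) := by
        rw [Finset.prod_empty, mul_one]
        exact_mod_cast hW
      positivity
    have h2 := (abs_nonneg _).trans h
    by_contra hneg
    push Not at hneg
    have := mul_neg_of_neg_of_pos hneg h1
    linarith
  have hlev := level_genG (HG W P g) (cg (bigG W P g) N1 G J)
    (cg (bigG W P g) N1 L J) Fs hFsd m β ε
    (fun p : P => ρ p) (fun p : P => b p)
    hm (fun p => hρ0 p p.2) (fun p => hb p p.2) (fun p => hρ p p.2) hβ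
    (by
      intro x
      unfold cg
      exact mul_nonneg (by positivity) (Finset.sum_nonneg fun _ _ => hG0 _))
    (by
      intro x
      unfold cg
      apply mul_le_mul_of_nonneg_left _ (by positivity)
      exact Finset.sum_le_sum fun _ _ => hG1 _)
    (by
      intro S hS x
      rw [EE_cg hP]
      have h1 := hmass _ ((hFsmem S).1 hS) (x.val : ℤ)
      have hbm : ∏ p ∈ S.map (Function.Embedding.subtype _), b p = ∏ p ∈ S, b (p : ℕ) := by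
        rw [Finset.prod_map]; rfl
      rw [prod_map_sub, hbm] at h1
      unfold mass at h1
      rw [← hJ] at h1
      have hmr : (0 : ℝ) < (W * ∏ p ∈ S, (p : ℕ) ^ g p : ℕ) := by
        exact_mod_cast hmodpos S
      calc _ ≤ ((W * ∏ p ∈ S, (p : ℕ) ^ g p : ℕ) : ℝ) / N1 *
            (β * (∏ p ∈ S, b (p : ℕ)) * (N1 / (W * ∏ p ∈ S, (p : ℕ) ^ g p : ℕ))) :=
            mul_le_mul_of_nonneg_left h1 (by positivity)
        _ = (∏ p ∈ S, b (p : ℕ)) * β := by field_simp)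
    (by
      intro t ht x
      rw [EE_cg hP]
      set d := W * ∏ p ∈ Finset.univ.sup t, (p : ℕ) ^ g p with hd
      have hdpos : 0 < d := hmodpos _
      have hdr : (0 : ℝ) < d := by exact_mod_cast hdpos
      have hdle : ∏ p ∈ Finset.univ.sup t, (p : ℕ) ^ g p ≤ D ^ (2 * m + 1) :=
        prod_sup_le hP D t fun i => hFsD _ (ht i)
      have h5 := hL ((Finset.univ.sup t).map (Function.Embedding.subtype _))
        (by
          intro p hp
          rw [Finset.mem_map] at hp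
          obtain ⟨p', _, rfl⟩ := hp
          exact p'.2)
        (by rw [prod_map_sub]; exact hdle) (x.val : ℤ)
      rw [prod_map_sub, ← hd] at h5
      unfold mass at h5
      rw [← hJ] at h5
      set cnt := ∑ n ∈ J.filter (fun n : ℤ => n ≡ (x.val : ℤ) [ZMOD (d : ℕ)]), L n
      have h6 : (d : ℝ) / N1 * cnt - 1 = (d : ℝ) / N1 * (cnt - (N1 : ℝ) / d) := by
        field_simp
      rw [h6, abs_mul, abs_of_nonneg (by positivity : (0 : ℝ) ≤ (d : ℝ) / N1)]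
      calc (d : ℝ) / N1 * |cnt - (N1 : ℝ) / d| ≤ (d : ℝ) / N1 * (ε * (N1 / d)) :=
            mul_le_mul_of_nonneg_left h5 (by positivity)
        _ = ε := by field_simp)
    (by
      have hcard : (Fs.card : ℝ) ≤ Fm.card := by exact_mod_cast hFscard
      calc ε * (Fs.card : ℝ) ^ (2 * m) ≤ ε * (Fm.card : ℝ) ^ (2 * m) := by gcongr
        _ ≤ 1 := hε)
  let T : Finset (Σ _ : ℕ, ℕ) := Qs.sigma (fun q => (Finset.range q).filter (Nat.Coprime q))
  let ξf : (Σ _ : ℕ, ℕ) → ZMod (bigG W P g) := fun t =>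
    ((t.2 * (bigG W P g / t.1) : ℕ) : ZMod (bigG W P g))
  have hT : ∀ t ∈ T, 1 ≤ t.1 ∧ t.2 < t.1 ∧ Nat.Coprime t.1 t.2 ∧ goodg P g W t.1 ∧
      Ug W t.1 ∈ Fm := by
    intro t ht
    simp only [T, Finset.mem_sigma, Finset.mem_filter, Finset.mem_range] at ht
    have h1 := hQs t.1 ht.1
    exact ⟨h1.1, ht.2.1, ht.2.2, h1.2.1, h1.2.2⟩
  have hinj : Set.InjOn ξf T := by
    apply freq_inj
    intro t ht
    have h1 := hT t ht
    exact ⟨h1.1, goodg_dvd hP hW h1.1 h1.2.2.2.1, h1.2.1, h1.2.2.1⟩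
  have hmap : ∀ t ∈ T, (UfG (ξf t)).map (Function.Embedding.subtype _) = Ug W t.1 := by
    intro t ht
    have h1 := hT t ht
    exact map_UfG hP hW h1.1 h1.2.2.2.1 h1.2.2.1
  have hbes := bessel_gG (HG W P g) (cg (bigG W P g) N1 G J) Fs (fun p : P => ρ p)
    (2 * β ^ 2 * (1 + β ^ (-(1 / (m : ℝ)))))
    (T.image ξf) UfG (by
      intro ξ _ p
      simp only [UfG, Finset.mem_filter, Finset.mem_univ, true_and])
    (by
      intro ξ hξ
      rw [Finset.mem_image] at hξ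
      obtain ⟨t, ht, rfl⟩ := hξ
      rw [hFsmem, hmap t ht]
      exact (hT t ht).2.2.2.2)
    (fun p => hρ0 p p.2) hlev
  rw [Finset.sum_image hinj] at hbes
  have hsum : ∑ q ∈ Qs, (∏ p ∈ Ug W q, ρ p) * enG G y N1 q =
      ∑ t ∈ T, (∏ p ∈ Ug W t.1, ρ p) * ‖Fw G y N1 ((t.2 : ℝ) / t.1)‖ ^ 2 := by
    simp only [T]
    rw [Finset.sum_sigma]
    refine Finset.sum_congr rfl fun q _ => ?_
    unfold enG
    rw [Finset.mul_sum]
  rw [hsum]
  have hterm : ∀ t ∈ T, (∏ p ∈ Ug W t.1, ρ p) * ‖Fw G y N1 ((t.2 : ℝ) / t.1)‖ ^ 2 =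
      ((N1 : ℝ) / (bigG W P g : ℝ)) ^ 2 * ((∏ p ∈ UfG (ξf t), ρ (p : ℕ)) *
        ‖ftz (fun z => (cg (bigG W P g) N1 G J z : ℂ)) (ξf t)‖ ^ 2) := by
    intro t ht
    have h1 := hT t ht
    have h2 : ∏ p ∈ UfG (ξf t), ρ (p : ℕ) = ∏ p ∈ Ug W t.1, ρ p := by
      rw [← hmap t ht, Finset.prod_map]
      rfl
    rw [h2]
    simp only [ξf]
    rw [hJ, ftz_cg N1 G y h1.1 (goodg_dvd hP hW h1.1 h1.2.2.2.1), norm_mul, Complex.norm_real,
      Real.norm_eq_abs, abs_of_nonneg (by positivity), mul_pow]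
    generalize ‖Fw G y N1 ((t.2 : ℝ) / t.1)‖ = Z
    field_simp
  rw [Finset.sum_congr rfl hterm, ← Finset.mul_sum]
  calc ((N1 : ℝ) / (bigG W P g : ℝ)) ^ 2 * _ ≤ ((N1 : ℝ) / (bigG W P g : ℝ)) ^ 2 *
        ((bigG W P g : ℝ) ^ 2 * (2 * β ^ 2 * (1 + β ^ (-(1 / (m : ℝ)))))) :=
        mul_le_mul_of_nonneg_left hbes (by positivity)
    _ = (N1 : ℝ) ^ 2 * (2 * β ^ 2 * (1 + β ^ (-(1 / (m : ℝ))))) := by field_simp

end Vale.Agent.P042.H305
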