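import Vale.Agent.P042.H305.LiM

set_option autoImplicit false

/-!
The noised weight of a random pin and its equidistribution.
-/

namespace Vale.Agent.P042.H305

open Finset Vale.Agent.P042.SS Vale.Agent.P042.TT Vale.Agent.P042

/-- the noised indicator of the class `c p mod p` at the primes of `T` -/
noncomputable def nwt (T : Finset ℕ) (q u : ℕ → ℝ) (c : ℕ → ℤ) (n : ℤ) : ℝ :=
  ∏ p ∈ T, (1 - q p + q p * (if n ≡ c p [ZMOD (p : ℕ)] then u p else 0))

/-- its mean -/
noncomputable def nz (T : Finset ℕ) (q u : ℕ → ℝ) : ℝ := ∏ p ∈ T, (1 - q p + q p * u p / p)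

theorem nwt_nonneg {T : Finset ℕ} {q u : ℕ → ℝ} (hq0 : ∀ p ∈ T, 0 ≤ q p) (hq1 : ∀ p ∈ T, q p ≤ 1)
    (hu : ∀ p ∈ T, 0 ≤ u p) (c : ℕ → ℤ) (n : ℤ) : 0 ≤ nwt T q u c n := by
  unfold nwt
  refine prod_nonneg fun p hp => ?_
  have h0 := hq0 p hp
  have h1 := hq1 p hp
  have h2 := hu p hp
  split_ifs
  · have := mul_nonneg h0 h2
    linarith
  · linarith

/-- number of elements of a class in a window -/
theorem count_mod' {d N : ℕ} (hd : 0 < d) (y x : ℤ) :
    |((((Ioc y (y + N)).filter (fun n : ℤ => n ≡ x [ZMOD (d : ℕ)])).card : ℕ) : ℝ) -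
      (N : ℝ) / d| ≤ 1 := count_mod (N1 := N) hd y x

/-- the noised weight is equidistributed -/
theorem nwt_count (q u : ℕ → ℝ) (c : ℕ → ℤ) (y : ℤ) (N : ℕ) (T : Finset ℕ) :
    (∀ p ∈ T, p.Prime) → (∀ p ∈ T, 0 ≤ q p) → (∀ p ∈ T, q p ≤ 1) → (∀ p ∈ T, 0 ≤ u p) →
    ∀ d : ℕ, 0 < d → (∀ p ∈ T, Nat.Coprime p d) → ∀ x : ℤ,
      |mass (nwt T q u c) y N d x - (N : ℝ) / d * nz T q u| ≤
        ∏ p ∈ T, (1 - q p + q p * u p) := by
  classical
  induction T using Finset.induction_on with
  | empty =>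
    intro _ _ _ _ d hd _ x
    unfold mass nwt nz
    simp only [prod_empty, sum_const, nsmul_eq_mul, mul_one]
    exact count_mod' hd y x
  | insert p T hpT ih =>
    intro hP hq0 hq1 hu d hd hcop x
    have hPp := hP p (mem_insert_self _ _)
    have ih' := ih (fun p hp => hP p (mem_insert_of_mem hp)) (fun p hp => hq0 p (mem_insert_of_mem hp))
      (fun p hp => hq1 p (mem_insert_of_mem hp)) (fun p hp => hu p (mem_insert_of_mem hp))
    have hcd : Nat.Coprime p d := hcop p (mem_insert_self _ _)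
    obtain ⟨x', hx1, hx2⟩ := cra_crt d p hcd.symm x (c p)
    have hpd : 0 < d * p := Nat.mul_pos hd hPp.pos
    have i1 := ih' d hd (fun r hr => hcop r (mem_insert_of_mem hr)) x
    have i2 := ih' (d * p) hpd (fun r hr => by
      refine Nat.Coprime.mul_right (hcop r (mem_insert_of_mem hr)) ?_
      rw [Nat.coprime_primes (hP r (mem_insert_of_mem hr)) hPp]
      rintro rfl
      exact hpT hr) x'
    have e1 : mass (nwt (insert p T) q u c) y N d x =
        (1 - q p) * mass (nwt T q u c) y N d x + q p * u p * mass (nwt T q u c) y N (d * p) x' := by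
      unfold mass
      rw [mul_sum, mul_sum]
      have hf : (Ioc y (y + N)).filter (fun n : ℤ => n ≡ x' [ZMOD ((d * p : ℕ) : ℤ)]) =
          ((Ioc y (y + N)).filter (fun n : ℤ => n ≡ x [ZMOD (d : ℕ)])).filter
            (fun n : ℤ => n ≡ c p [ZMOD (p : ℕ)]) := by
        rw [filter_filter]
        apply filter_congr
        intro n _
        rw [Nat.cast_mul, ← Int.modEq_and_modEq_iff_modEq_mul (by simpa using hcd.symm)]
        constructor
        · rintro ⟨h1, h2⟩
          exact ⟨h1.trans hx1, h2.trans hx2⟩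
        · rintro ⟨h1, h2⟩
          exact ⟨h1.trans hx1.symm, h2.trans hx2.symm⟩
      rw [hf, sum_filter (p := fun n : ℤ => n ≡ c p [ZMOD (p : ℕ)]), ← sum_add_distrib]
      refine sum_congr rfl fun n _ => ?_
      unfold nwt
      rw [prod_insert hpT]
      split_ifs
      · ring
      · ring
    have e2 : nz (insert p T) q u = (1 - q p + q p * u p / p) * nz T q u := by
      unfold nz
      rw [prod_insert hpT]
    rw [e1, e2, prod_insert hpT]
    have hq := hq0 p (mem_insert_self _ _)
    have hq' := hq1 p (mem_insert_self _ _)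
    have hup := hu p (mem_insert_self _ _)
    have hpr : (0 : ℝ) < p := by exact_mod_cast hPp.pos
    have hdr : (0 : ℝ) < d := by exact_mod_cast hd
    have e3 : (1 - q p) * mass (nwt T q u c) y N d x +
        q p * u p * mass (nwt T q u c) y N (d * p) x' -
        (N : ℝ) / d * ((1 - q p + q p * u p / p) * nz T q u) =
        (1 - q p) * (mass (nwt T q u c) y N d x - (N : ℝ) / d * nz T q u) +
        q p * u p * (mass (nwt T q u c) y N (d * p) x' -
          (N : ℝ) / ((d * p : ℕ) : ℝ) * nz T q u) := by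
      rw [Nat.cast_mul]
      field_simp
      ring
    rw [e3]
    have a1 : 0 ≤ 1 - q p := by linarith
    have a2 : 0 ≤ q p * u p := mul_nonneg hq hup
    calc _ ≤ |(1 - q p) * (mass (nwt T q u c) y N d x - (N : ℝ) / d * nz T q u)| +
        |q p * u p * (mass (nwt T q u c) y N (d * p) x' -
          (N : ℝ) / ((d * p : ℕ) : ℝ) * nz T q u)| := abs_add_le _ _
      _ ≤ (1 - q p) * ∏ p ∈ T, (1 - q p + q p * u p) +
          q p * u p * ∏ p ∈ T, (1 - q p + q p * u p) := by
        rw [abs_mul, abs_mul, abs_of_nonneg a1, abs_of_nonneg a2]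
        gcongr
      _ = _ := by ring

end Vale.Agent.P042.H305
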