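import Vale.Agent.P042.H305.LiMw

set_option autoImplicit false

/-!
The level inequality in a class for a weight multiplied by noised pins (`coreM`).
-/

namespace Vale.Agent.P042.H305

open Finset Vale.Agent.P042.SS Vale.Agent.P042.TT Vale.Agent.P042

theorem nwt_err {T : Finset ℕ} {q u : ℕ → ℝ} (hT : ∀ p ∈ T, p.Prime) (hq0 : ∀ p ∈ T, 0 ≤ q p)
    (hq1 : ∀ p ∈ T, q p ≤ 1) (hu : ∀ p ∈ T, 0 ≤ u p) :
    ∏ p ∈ T, (1 - q p + q p * u p) ≤ ((∏ p ∈ T, p : ℕ) : ℝ) * nz T q u := by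
  unfold nz
  push_cast
  rw [← prod_mul_distrib]
  refine prod_le_prod (fun p hp => ?_) fun p hp => ?_
  · have := mul_nonneg (hq0 p hp) (hu p hp)
    have := hq1 p hp
    linarith
  · have h1 := hq0 p hp
    have h2 := hq1 p hp
    have hpp := (hT p hp).one_lt
    have hp1 : (1 : ℝ) ≤ p := by exact_mod_cast hpp.le
    have hp0 : (0 : ℝ) < p := by linarith
    have e : (p : ℝ) * (1 - q p + q p * u p / p) = p * (1 - q p) + q p * u p := by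
      field_simp
    rw [e]
    nlinarith

theorem nz_nonneg {T : Finset ℕ} {q u : ℕ → ℝ} (hq0 : ∀ p ∈ T, 0 ≤ q p)
    (hq1 : ∀ p ∈ T, q p ≤ 1) (hu : ∀ p ∈ T, 0 ≤ u p) : 0 ≤ nz T q u := by
  unfold nz
  refine prod_nonneg fun p hp => ?_
  have h3 : 0 ≤ q p * u p / p := div_nonneg (mul_nonneg (hq0 p hp) (hu p hp)) (Nat.cast_nonneg _)
  have := hq1 p hp
  linarith

theorem nz_pos {T : Finset ℕ} {q u : ℕ → ℝ} (hq0 : ∀ p ∈ T, 0 ≤ q p)
    (hq1 : ∀ p ∈ T, q p < 1) (hu : ∀ p ∈ T, 0 ≤ u p) : 0 < nz T q u := by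
  unfold nz
  refine prod_pos fun p hp => ?_
  have h3 : 0 ≤ q p * u p / p := div_nonneg (mul_nonneg (hq0 p hp) (hu p hp)) (Nat.cast_nonneg _)
  have := hq1 p hp
  linarith

/-- classes pulled back to a progression -/
theorem pull (R p : ℕ) (h : Nat.Coprime p R) (n0 c : ℤ) :
    ∃ c' : ℤ, ∀ j : ℤ, n0 + R * j ≡ c [ZMOD (p : ℕ)] ↔ j ≡ c' [ZMOD (p : ℕ)] := by
  have hg := Int.isCoprime_iff_gcd_eq_one.2 (show Int.gcd (R : ℤ) (p : ℤ) = 1 from by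
    rw [Int.gcd_natCast_natCast]; exact h.symm)
  obtain ⟨s, t, hst⟩ := hg
  refine ⟨s * (c - n0), fun j => ?_⟩
  constructor
  · intro h1
    have h2 : s * (n0 + R * j) ≡ s * c [ZMOD (p : ℕ)] := h1.mul_left s
    have h3 : s * (n0 + R * j) - s * n0 ≡ s * c - s * n0 [ZMOD (p : ℕ)] := h2.sub_right _
    have h4 : s * (n0 + R * j) - s * n0 ≡ j [ZMOD (p : ℕ)] := by
      have e : s * (n0 + R * j) - s * n0 = j - p * (t * j) := by
        have : s * (R : ℤ) = 1 - t * p := by linarith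
        linear_combination j * this
      rw [e]
      exact (Int.modEq_iff_dvd.2 ⟨t * j, by ring⟩)
    calc j ≡ s * (n0 + R * j) - s * n0 [ZMOD (p : ℕ)] := h4.symm
      _ ≡ s * c - s * n0 [ZMOD (p : ℕ)] := h3
      _ = s * (c - n0) := by ring
  · intro h1
    have h2 : (R : ℤ) * j ≡ R * (s * (c - n0)) [ZMOD (p : ℕ)] := h1.mul_left _
    have h3 : (R : ℤ) * (s * (c - n0)) ≡ c - n0 [ZMOD (p : ℕ)] := by
      have e : (R : ℤ) * (s * (c - n0)) = (c - n0) - p * (t * (c - n0)) := by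
        have : s * (R : ℤ) = 1 - t * p := by linarith
        linear_combination (c - n0) * this
      rw [e]
      exact (Int.modEq_iff_dvd.2 ⟨t * (c - n0), by ring⟩)
    have h4 := (h2.trans h3).add_left n0
    calc n0 + R * j ≡ n0 + (c - n0) [ZMOD (p : ℕ)] := h4
      _ = c := by ring

/-- **Level inequality in a class, for a weight multiplied by noised pins.** -/
theorem coreM (Pr T : Finset ℕ) (g : ℕ → ℕ) (R M D m : ℕ) (β Gm : ℝ) (ρ b q u : ℕ → ℝ)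
    (c : ℕ → ℤ) (G : ℤ → ℝ) (y r : ℤ) (Fm : Finset (Finset ℕ)) (Qs : Finset ℕ)
    (hP : ∀ p ∈ Pr, p.Prime) (hPc : ∀ p ∈ Pr, Nat.Coprime p R)
    (hT : ∀ p ∈ T, p.Prime) (hTR : ∀ p ∈ T, Nat.Coprime p R) (hTP : Disjoint T Pr)
    (hq0 : ∀ p ∈ T, 0 ≤ q p) (hq1 : ∀ p ∈ T, q p ≤ 1) (hu : ∀ p ∈ T, 0 ≤ u p)
    (hz : 0 < nz T q u) (hR : 1 ≤ R)
    (hm : 2 ≤ m) (hβ : 0 < β) (hGm : 0 < Gm)
    (hρ0 : ∀ p ∈ Pr, 0 ≤ ρ p) (hb : ∀ p ∈ Pr, 1 ≤ b p)
    (hρ : ∀ p ∈ Pr, 12 * m * ρ p * (1 + b p) ≤ 1)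
    (hG0 : ∀ n, 0 ≤ G n) (hG1 : ∀ n, G n ≤ Gm)
    (hFmP : ∀ S ∈ Fm, S ⊆ Pr) (hFmd : ∀ S ∈ Fm, ∀ T, T ⊆ S → T ∈ Fm)
    (hFmD : ∀ S ∈ Fm, ∏ p ∈ S, p ^ g p ≤ D)
    (hM : R * (∏ p ∈ T, p) * (D ^ (2 * m + 1) * Fm.card ^ (2 * m)) ≤ M)
    (hmass : ∀ S ∈ Fm, ∀ z : ℤ, z ≡ r [ZMOD (R : ℕ)] →
      mass (fun n => G n * nwt T q u c n) y M (R * ∏ p ∈ S, p ^ g p) z ≤
        β * (∏ p ∈ S, b p) * (M / (R * ∏ p ∈ S, (p : ℝ) ^ g p)))
    (hQs : ∀ k ∈ Qs, 1 ≤ k ∧ (∀ p ∈ k.primeFactors, p ∈ Pr ∧ k.factorization p ≤ g p) ∧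
      k.primeFactors ∈ Fm) :
    ∑ k ∈ Qs, (∏ p ∈ k.primeFactors, ρ p) * ∑ a ∈ (range k).filter (Nat.Coprime k),
      ‖∑ n ∈ (Ioc y (y + M)).filter (fun n : ℤ => n ≡ r [ZMOD (R : ℕ)]),
        ((G n * nwt T q u c n : ℝ) : ℂ) * e (-((n : ℝ) * ((a : ℝ) / k)))‖ ^ 2 ≤
      8 * ((M : ℝ) / R) ^ 2 * β ^ 2 * (1 + (Gm * nz T q u / β) ^ (1 / (m : ℝ))) := by
  classical
  have hRr : (0 : ℝ) < R := by exact_mod_cast hR
  rcases Fm.eq_empty_or_nonempty with hemp | ⟨S1, hS1⟩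
  · have hQe : Qs = ∅ := by
      rw [Finset.eq_empty_iff_forall_notMem]
      intro q hq
      have := (hQs q hq).2.2
      rw [hemp] at this
      exact Finset.notMem_empty _ this
    rw [hQe, Finset.sum_empty]
    positivity
  have hempty : ∅ ∈ Fm := hFmd S1 hS1 ∅ (Finset.empty_subset _)
  have hD1 : 1 ≤ D := by
    have := hFmD ∅ hempty
    simpa using this
  have hcard1 : 1 ≤ Fm.card := Finset.card_pos.2 ⟨_, hempty⟩
  have hpT : 1 ≤ ∏ p ∈ T, p := Nat.one_le_iff_ne_zero.2 (prod_ne_zero_iff.2 fun p hp =>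
    (hT p hp).pos.ne')
  have hDD : 1 ≤ D ^ (2 * m + 1) * Fm.card ^ (2 * m) := Nat.mul_pos (by positivity) (by positivity)
  set PT : ℕ := ∏ p ∈ T, p with hPT
  set N1 : ℕ := M / R + 1 with hN1
  have hN1ge : PT * (D ^ (2 * m + 1) * Fm.card ^ (2 * m)) ≤ N1 := by
    rw [hN1]
    have : PT * (D ^ (2 * m + 1) * Fm.card ^ (2 * m)) ≤ M / R := by
      rw [Nat.le_div_iff_mul_le hR]
      calc PT * (D ^ (2 * m + 1) * Fm.card ^ (2 * m)) * R =
          R * PT * (D ^ (2 * m + 1) * Fm.card ^ (2 * m)) := by ring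
        _ ≤ M := hM
    omega
  have hN1pos : 0 < N1 := Nat.succ_pos _
  have hN1r : (0 : ℝ) < N1 := by exact_mod_cast hN1pos
  have hML : (M : ℝ) / R ≤ N1 := by
    rw [div_le_iff₀ hRr, hN1]
    have h1 : M < R * (M / R + 1) := Nat.lt_mul_div_succ M hR
    have h2 : (M : ℝ) ≤ ((R * (M / R + 1) : ℕ) : ℝ) := by exact_mod_cast h1.le
    rw [Nat.cast_mul] at h2
    linarith
  have hML1 : (1 : ℝ) ≤ (M : ℝ) / R := by
    rw [le_div_iff₀ hRr, one_mul]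
    have : R * 1 ≤ M := by
      calc R * 1 ≤ R * (PT * (D ^ (2 * m + 1) * Fm.card ^ (2 * m))) :=
            Nat.mul_le_mul_left R (Nat.mul_pos hpT hDD)
        _ = R * PT * (D ^ (2 * m + 1) * Fm.card ^ (2 * m)) := by ring
        _ ≤ M := hM
    rw [mul_one] at this
    exact_mod_cast this
  have hN12 : (N1 : ℝ) ≤ 2 * ((M : ℝ) / R) := by
    rw [hN1]
    push_cast
    have h1 : ((M / R : ℕ) : ℝ) ≤ (M : ℝ) / R := Nat.cast_div_le
    linarith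
  set Z : ℝ := nz T q u with hZ
  set Gw : ℤ → ℝ := fun n => G n * nwt T q u c n with hGw
  have hGZ : 0 < Gm * Z := mul_pos hGm hz
  set G' : ℤ → ℝ := cra_G Gw y r M R (Gm * Z) with hG'
  have hn0 := cra_n0_mod y r R
  -- the reference weight
  have hpull : ∀ p : ℕ, ∃ c' : ℤ, p ∈ T → ∀ j : ℤ,
      cra_n0 y r R + R * j ≡ c p [ZMOD (p : ℕ)] ↔ j ≡ c' [ZMOD (p : ℕ)] := by
    intro p
    by_cases hp : p ∈ T
    · obtain ⟨c', hc'⟩ := pull R p (hTR p hp) (cra_n0 y r R) (c p)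
      exact ⟨c', fun _ => hc'⟩
    · exact ⟨0, fun h => absurd h hp⟩
  choose c' hc' using hpull
  have hnw : ∀ j : ℤ, nwt T q u c (cra_n0 y r R + R * j) = nwt T q u c' j := by
    intro j
    unfold nwt
    refine prod_congr rfl fun p hp => ?_
    by_cases h : j ≡ c' p [ZMOD (p : ℕ)]
    · rw [if_pos h, if_pos ((hc' p hp j).2 h)]
    · rw [if_neg h, if_neg (fun h' => h ((hc' p hp j).1 h'))]
  set L : ℤ → ℝ := fun j => nwt T q u c' j / Z with hL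
  have hLmass : ∀ d : ℕ, ∀ x : ℤ, mass L 0 N1 d x = mass (nwt T q u c') 0 N1 d x / Z := by
    intro d x
    unfold mass
    rw [sum_div]
  have hmassL : ∀ S ⊆ Pr, ∏ p ∈ S, p ^ g p ≤ D ^ (2 * m + 1) → ∀ x : ℤ,
      |mass L 0 N1 (1 * ∏ p ∈ S, p ^ g p) x - N1 / ((1 * ∏ p ∈ S, p ^ g p : ℕ) : ℝ)| ≤
        (PT * (D : ℝ) ^ (2 * m + 1) / N1) * (N1 / ((1 * ∏ p ∈ S, p ^ g p : ℕ) : ℝ)) := by
    intro S hS hSD x
    rw [one_mul]
    set d : ℕ := ∏ p ∈ S, p ^ g p with hd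
    have hdpos : 0 < d := prod_pos fun p hp => pow_pos (hP p (hS hp)).pos _
    have hdr : (0 : ℝ) < d := by exact_mod_cast hdpos
    have hcop : ∀ p ∈ T, Nat.Coprime p d := by
      intro p hp
      refine Nat.Coprime.prod_right fun r hr => Nat.Coprime.pow_right _ ?_
      rw [Nat.coprime_primes (hT p hp) (hP r (hS hr))]
      rintro rfl
      exact (Finset.disjoint_left.1 hTP hp) (hS hr)
    have h1 := nwt_count q u c' 0 N1 T hT hq0 hq1 hu d hdpos hcop x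
    have h2 := nwt_err hT hq0 hq1 hu
    rw [← hPT, ← hZ] at h2
    rw [hLmass]
    have e1 : mass (nwt T q u c') 0 N1 d x / Z - N1 / d =
        (mass (nwt T q u c') 0 N1 d x - N1 / d * Z) / Z := by
      field_simp
    rw [e1, abs_div, abs_of_pos hz, div_le_iff₀ hz]
    have h3 : (PT : ℝ) ≤ PT * (D : ℝ) ^ (2 * m + 1) / N1 * (N1 / d) := by
      have : PT * (D : ℝ) ^ (2 * m + 1) / N1 * (N1 / d) = PT * ((D : ℝ) ^ (2 * m + 1) / d) := by
        field_simp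
      rw [this]
      have h4 : (1 : ℝ) ≤ (D : ℝ) ^ (2 * m + 1) / d := by
        rw [le_div_iff₀ hdr, one_mul]
        exact_mod_cast hSD
      exact le_mul_of_one_le_right (Nat.cast_nonneg _) h4
    calc _ ≤ ∏ p ∈ T, (1 - q p + q p * u p) := h1
      _ ≤ PT * Z := h2
      _ ≤ _ := mul_le_mul_of_nonneg_right h3 hz.le
  have hε : (PT * (D : ℝ) ^ (2 * m + 1) / N1) * (Fm.card : ℝ) ^ (2 * m) ≤ 1 := by
    rw [div_mul_eq_mul_div, div_le_one hN1r]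
    have := hN1ge
    have h5 : ((PT * (D ^ (2 * m + 1) * Fm.card ^ (2 * m)) : ℕ) : ℝ) ≤ N1 := by exact_mod_cast this
    push_cast at h5
    linarith
  have hlig := liM Pr g 1 D m N1 (β / (Gm * Z)) (PT * (D : ℝ) ^ (2 * m + 1) / N1) ρ b G' L 0 Fm Qs
    hP le_rfl hm (by positivity) hN1pos hρ0 hb hρ
    (by
      intro n
      rw [hG', cra_G]
      split_ifs
      · exact div_nonneg (mul_nonneg (hG0 _) (nwt_nonneg hq0 hq1 hu _ _)) hGZ.le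
      · exact le_rfl)
    (by
      intro n
      have h0 : 0 ≤ nwt T q u c' n := nwt_nonneg hq0 hq1 hu _ _
      rw [hG', cra_G]
      split_ifs
      · simp only [hGw, hL]
        rw [hnw, div_le_div_iff₀ hGZ hz]
        have := mul_le_mul_of_nonneg_right (hG1 (cra_n0 y r R + R * n)) (mul_nonneg h0 hz.le)
        nlinarith [this]
      · exact div_nonneg h0 hz.le)
    hFmP hFmd hFmD hmassL hε
    (by
      intro S hS z
      rw [one_mul, hG', cra_mass Gw y r M R _ (Gm * Z) hR z]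
      have hzr : cra_n0 y r R + R * z ≡ r [ZMOD (R : ℕ)] := by
        have h5 : cra_n0 y r R + R * z ≡ cra_n0 y r R + 0 [ZMOD (R : ℕ)] :=
          Int.ModEq.add_left _ (Int.modEq_zero_iff_dvd.2 (dvd_mul_right _ _))
        rw [add_zero] at h5
        exact h5.trans hn0
      have hms := hmass S hS _ hzr
      have hpr : (0 : ℝ) < ∏ p ∈ S, (p : ℝ) ^ g p :=
        Finset.prod_pos fun p hp => pow_pos (by exact_mod_cast (hP p (hFmP S hS hp)).pos) _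
      have hbr : (0 : ℝ) ≤ ∏ p ∈ S, b p :=
        Finset.prod_nonneg fun p hp => zero_le_one.trans (hb p (hFmP S hS hp))
      rw [div_le_iff₀ hGZ]
      refine hms.trans ?_
      have hcast : ((∏ p ∈ S, p ^ g p : ℕ) : ℝ) = ∏ p ∈ S, (p : ℝ) ^ g p := by push_cast; rfl
      have e1 : (M : ℝ) / (R * ∏ p ∈ S, (p : ℝ) ^ g p) =
          ((M : ℝ) / R) / ∏ p ∈ S, (p : ℝ) ^ g p := by
        rw [div_div]
      rw [e1]
      have e2 : β / (Gm * Z) * (∏ p ∈ S, b p) * ((N1 : ℝ) / ((∏ p ∈ S, p ^ g p : ℕ) : ℝ)) *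
          (Gm * Z) = β * (∏ p ∈ S, b p) * ((N1 : ℝ) / ∏ p ∈ S, (p : ℝ) ^ g p) := by
        rw [hcast]
        field_simp
      rw [e2]
      gcongr)
    (by
      intro q hq
      obtain ⟨h1, h2, h3⟩ := hQs q hq
      refine ⟨h1, ?_, ?_⟩
      · intro p hp
        exact Or.inr (h2 p hp)
      · rw [cra_Ug]
        exact h3)
  have hterm : ∀ k ∈ Qs, (∏ p ∈ k.primeFactors, ρ p) *
      ∑ a ∈ (range k).filter (Nat.Coprime k),
      ‖∑ n ∈ (Ioc y (y + M)).filter (fun n : ℤ => n ≡ r [ZMOD (R : ℕ)]),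
        ((G n * nwt T q u c n : ℝ) : ℂ) * e (-((n : ℝ) * ((a : ℝ) / k)))‖ ^ 2 =
      (Gm * Z) ^ 2 * ((∏ p ∈ Ug 1 k, ρ p) * enG G' 0 N1 k) := by
    intro k hk
    obtain ⟨h1, h2, h3⟩ := hQs k hk
    have hcop : Nat.Coprime R k := by
      apply Nat.coprime_of_dvd
      intro p hp hpL hpq
      have h4 : p ∈ k.primeFactors := Nat.mem_primeFactors.2 ⟨hp, hpq, by omega⟩
      have h5 := hPc p (h2 p h4).1
      exact (Nat.Prime.coprime_iff_not_dvd hp).1 h5 hpL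
    rw [cra_Ug, ← cra_perm G' 0 N1 R k h1 hcop]
    rw [Finset.sum_congr rfl fun (a : ℕ) _ =>
      cra_F Gw y r M R (Gm * Z) hR hGZ ((a : ℝ) / k), ← Finset.mul_sum]
    ring
  rw [Finset.sum_congr rfl hterm, ← Finset.mul_sum]
  refine (mul_le_mul_of_nonneg_left hlig (sq_nonneg _)).trans ?_
  have hGβ : 0 < Gm * Z / β := by positivity
  have e4 : (β / (Gm * Z)) ^ (-(1 / (m : ℝ))) = (Gm * Z / β) ^ (1 / (m : ℝ)) := by
    rw [Real.rpow_neg (by positivity), ← Real.inv_rpow (by positivity), inv_div]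
  rw [e4]
  have hX : 0 ≤ (Gm * Z / β) ^ (1 / (m : ℝ)) := Real.rpow_nonneg hGβ.le _
  have e5 : (Gm * Z) ^ 2 * ((N1 : ℝ) ^ 2 * (2 * (β / (Gm * Z)) ^ 2 *
      (1 + (Gm * Z / β) ^ (1 / (m : ℝ))))) =
      (N1 : ℝ) ^ 2 * (2 * β ^ 2 * (1 + (Gm * Z / β) ^ (1 / (m : ℝ)))) := by
    field_simp
  rw [e5]
  calc (N1 : ℝ) ^ 2 * (2 * β ^ 2 * (1 + (Gm * Z / β) ^ (1 / (m : ℝ)))) ≤
      (2 * ((M : ℝ) / R)) ^ 2 * (2 * β ^ 2 * (1 + (Gm * Z / β) ^ (1 / (m : ℝ)))) := by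
        gcongr
    _ = _ := by ring

end Vale.Agent.P042.H305
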