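import Vale.Agent.P042.UU.LocE

set_option autoImplicit false
set_option linter.unusedSectionVars false

/-!
The additional member `σ₀` of the family of the union bound: the density of the uniform measure
with respect to the marginals.
-/

namespace Vale.Agent.P042.H305

open Finset Vale.Agent.P042.TT.Loc Vale.Agent.P042.UU.Loc

variable {ι : Type} [Fintype ι] [DecidableEq ι]
variable {X : ι → Type} [∀ i, Fintype (X i)] [∀ i, DecidableEq (X i)]

/-- proportion of empty classes -/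
noncomputable def zz (π : ∀ i, X i → ℝ) (u : ι → ℝ) (i : ι) : ℝ :=
  ∑ a, if π i a = 0 then u i else 0

/-- the one-site factor -/
noncomputable def fz (π : ∀ i, X i → ℝ) (u : ι → ℝ) (i : ι) (a : X i) : ℝ :=
  (if π i a = 0 then 0 else u i / π i a) + zz π u i

/-- the density of the uniform measure -/
noncomputable def Fz (π : ∀ i, X i → ℝ) (u : ι → ℝ) (x : ∀ i, X i) : ℝ := ∏ i, fz π u i (x i)

/-- variance of the one-site factor -/
noncomputable def VV (π : ∀ i, X i → ℝ) (u : ι → ℝ) (i : ι) : ℝ :=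
  ∑ a, π i a * fz π u i a ^ 2 - 1

theorem mean_fz (π : ∀ i, X i → ℝ) (hπ1 : ∀ i, ∑ x, π i x = 1) (u : ι → ℝ)
    (hu : ∀ i, (Fintype.card (X i) : ℝ) * u i = 1) (i : ι) : ∑ a, π i a * fz π u i a = 1 := by
  have h : ∀ a, π i a * fz π u i a = (u i - (if π i a = 0 then u i else 0)) +
      zz π u i * π i a := by
    intro a
    unfold fz
    by_cases h : π i a = 0
    · simp [h]
    · rw [if_neg h, if_neg h]
      field_simp
      ring
  rw [sum_congr rfl fun a _ => h a, sum_add_distrib, sum_sub_distrib, ← mul_sum, hπ1,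
    sum_const, nsmul_eq_mul, card_univ, hu]
  unfold zz
  ring

theorem zz_nonneg (π : ∀ i, X i → ℝ) (u : ι → ℝ) (hu : ∀ i, 0 < u i) (i : ι) : 0 ≤ zz π u i := by
  unfold zz
  refine sum_nonneg fun a _ => ?_
  split_ifs
  · exact (hu i).le
  · exact le_rfl

theorem zz_le (π : ∀ i, X i → ℝ) (u : ι → ℝ) (hu0 : ∀ i, 0 < u i)
    (hu : ∀ i, (Fintype.card (X i) : ℝ) * u i = 1) (i : ι) : zz π u i ≤ 1 := by
  rw [← hu i]
  unfold zz
  rw [← nsmul_eq_mul, ← card_univ, ← sum_const]
  refine sum_le_sum fun a _ => ?_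
  split_ifs
  · exact le_rfl
  · exact (hu0 i).le

theorem fz_nonneg (π : ∀ i, X i → ℝ) (hπ : ∀ i x, 0 ≤ π i x) (u : ι → ℝ) (hu : ∀ i, 0 < u i)
    (i : ι) (a : X i) : 0 ≤ fz π u i a := by
  unfold fz
  refine add_nonneg ?_ (zz_nonneg π u hu i)
  split_ifs
  · exact le_rfl
  · exact div_nonneg (hu i).le (hπ i a)

theorem fz_le (π : ∀ i, X i → ℝ) (hπ : ∀ i x, 0 ≤ π i x) (u : ι → ℝ) (hu0 : ∀ i, 0 < u i)
    (hu : ∀ i, (Fintype.card (X i) : ℝ) * u i = 1) (δ : ℝ) (hδ : 0 < δ)
    (hat : ∀ i a, π i a = 0 ∨ δ * u i ≤ π i a) (i : ι) (a : X i) : fz π u i a ≤ 1 / δ + 1 := by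
  unfold fz
  refine add_le_add ?_ (zz_le π u hu0 hu i)
  split_ifs with h
  · positivity
  · have h1 := (hat i a).resolve_left h
    have h2 : 0 < π i a := lt_of_le_of_ne (hπ i a) (Ne.symm h)
    rw [div_le_div_iff₀ h2 hδ]
    linarith

/-- the noisy operator on `Fz` -/
theorem uo_fz (π : ∀ i, X i → ℝ) (hπ1 : ∀ i, ∑ x, π i x = 1) (u : ι → ℝ)
    (hu : ∀ i, (Fintype.card (X i) : ℝ) * u i = 1) (q : ι → ℝ) (T : Finset ι) (x : ∀ i, X i) :
    uo q π (Fz π u) (mask T x) = ∏ i ∈ T, (1 - q i + q i * fz π u i (x i)) := by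
  unfold uo ten Fz
  have h1 : ∀ x' : (∀ i, X i), (∏ i, uk q π i (mask T x i) (x' i)) * ∏ i, fz π u i (x' i) =
      ∏ i, (uk q π i (mask T x i) (x' i) * fz π u i (x' i)) := fun x' => by
    rw [prod_mul_distrib]
  rw [sum_congr rfl fun x' _ => h1 x', ← prod_sum_pi (fun i a => uk q π i (mask T x i) a *
    fz π u i a), ← prod_subset (subset_univ T)]
  · refine prod_congr rfl fun i hi => ?_
    have e : mask T x i = some (x i) := by simp [mask, hi]
    rw [e]
    have h2 : ∀ a, uk q π i (some (x i)) a * fz π u i a =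
        (1 - q i) * (π i a * fz π u i a) + (if x i = a then q i * fz π u i a else 0) := by
      intro a
      by_cases h : x i = a
      · simp only [uk, dl, if_pos h]
        ring
      · simp only [uk, dl, if_neg h]
        ring
    rw [sum_congr rfl fun a _ => h2 a, sum_add_distrib, ← mul_sum, mean_fz π hπ1 u hu,
      sum_ite_eq]
    simp
  · intro i _ hi
    have e : mask T x i = none := by simp [mask, hi]
    rw [e]
    exact mean_fz π hπ1 u hu i

/-- the normalisation of the weight is at most the noisy operator on `Fz` -/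
theorem nz_le_uo (π : ∀ i, X i → ℝ) (hπ : ∀ i x, 0 ≤ π i x) (hπ1 : ∀ i, ∑ x, π i x = 1)
    (u : ι → ℝ) (hu0 : ∀ i, 0 < u i)
    (hu : ∀ i, (Fintype.card (X i) : ℝ) * u i = 1) (q : ι → ℝ) (hq0 : ∀ i, 0 ≤ q i)
    (hq1 : ∀ i, q i ≤ 1) (T : Finset ι) (x : ∀ i, X i) (hx : ∀ i ∈ T, π i (x i) ≠ 0) :
    ∏ i ∈ T, (1 - q i + q i * (u i / π i (x i))) ≤ uo q π (Fz π u) (mask T x) := by
  rw [uo_fz π hπ1 u hu]
  refine prod_le_prod (fun i hi => ?_) fun i hi => ?_
  · have h1 := hq1 i
    have h2 : 0 ≤ q i * (u i / π i (x i)) :=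
      mul_nonneg (hq0 i) (div_nonneg (hu0 i).le (hπ _ _))
    linarith
  · have h1 : u i / π i (x i) ≤ fz π u i (x i) := by
      unfold fz
      rw [if_neg (hx i hi)]
      have := zz_nonneg π u hu0 i
      linarith
    have := mul_le_mul_of_nonneg_left h1 (hq0 i)
    linarith

theorem bf_prod (b : ∀ i, X i → X i → ℝ) (g : ∀ i, X i → ℝ) :
    bf b (fun x => ∏ i, g i (x i)) (fun x => ∏ i, g i (x i)) =
      ∏ i, ∑ a, ∑ a', b i a a' * (g i a * g i a') := by
  unfold bf
  rw [prod_sum_pi (fun i a => ∑ a', b i a a' * (g i a * g i a'))]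
  refine sum_congr rfl fun x _ => ?_
  rw [prod_sum_pi (fun i a' => b i (x i) a' * (g i (x i) * g i a'))]
  refine sum_congr rfl fun x' _ => ?_
  rw [prod_mul_distrib, prod_mul_distrib]

theorem VV_nonneg (π : ∀ i, X i → ℝ) (hπ : ∀ i x, 0 ≤ π i x) (hπ1 : ∀ i, ∑ x, π i x = 1)
    (u : ι → ℝ) (hu : ∀ i, (Fintype.card (X i) : ℝ) * u i = 1) (i : ι) : 0 ≤ VV π u i := by
  have h : ∑ a, π i a * (fz π u i a - 1) ^ 2 = VV π u i := by
    have e : ∀ a, π i a * (fz π u i a - 1) ^ 2 =
        π i a * fz π u i a ^ 2 - 2 * (π i a * fz π u i a) + π i a := by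
      intro a; ring
    rw [sum_congr rfl fun a _ => e a, sum_add_distrib, sum_sub_distrib, ← mul_sum,
      mean_fz π hπ1 u hu, hπ1]
    unfold VV
    ring
  rw [← h]
  exact sum_nonneg fun a _ => mul_nonneg (hπ i a) (sq_nonneg _)

/-- local energies of `Fz` -/
theorem en_fz (π : ∀ i, X i → ℝ) (hπ : ∀ i x, 0 ≤ π i x) (hπ1 : ∀ i, ∑ x, π i x = 1)
    (u : ι → ℝ) (hu0 : ∀ i, 0 < u i)
    (hu : ∀ i, (Fintype.card (X i) : ℝ) * u i = 1) (δ : ℝ) (hδ : 0 < δ)
    (hat : ∀ i a, π i a = 0 ∨ δ * u i ≤ π i a) (r c : ι → ℝ) (hr : ∀ i, 0 ≤ r i)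
    (hc : ∀ i, 1 / δ + 1 ≤ c i) (k : ℕ) (T : Finset ι) (a : ∀ i, X i) :
    TT.Loc.en π r (tr π k (restr T a (Fz π u))) ≤
      (∏ i ∈ T, c i) ^ 2 * Real.exp (∑ i, r i * VV π u i) := by
  have h0 : TT.Loc.en π r (tr π k (restr T a (Fz π u))) ≤
      TT.Loc.en π r (restr T a (Fz π u)) := by
    rw [en_tr π hπ1, en_expand]
    exact sum_le_sum_of_subset_of_nonneg (filter_subset _ _) fun W _ _ =>
      mul_nonneg (prod_nonneg fun i _ => hr i) (nW_nonneg π hπ hπ1 W _)
  refine h0.trans ?_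
  set g : ∀ i, X i → ℝ := fun i y => if i ∈ T then fz π u i (a i) else fz π u i y with hg
  have e1 : restr T a (Fz π u) = fun y => ∏ i, g i (y i) := by
    funext y
    unfold restr Fz
    refine prod_congr rfl fun i _ => ?_
    simp only [hg, Finset.piecewise]
    split_ifs <;> rfl
  unfold TT.Loc.en
  rw [e1, bf_prod]
  have hsv : ∀ i, ∑ x, ∑ x', vk π i x x' = 0 := by
    intro i
    have : ∀ x, ∑ x', vk π i x x' = 0 := by
      intro x
      unfold vk
      rw [sum_sub_distrib, ← mul_sum, ← mul_sum, hπ1]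
      simp
    simp [this]
  have hpp : ∀ i, ∑ x, ∑ x', π i x * π i x' = 1 := by
    intro i
    rw [← sum_mul_sum, hπ1, one_mul]
  have hT : ∀ i ∈ T, ∑ x, ∑ x', (r i * vk π i x x' + π i x * π i x') * (g i x * g i x') =
      fz π u i (a i) ^ 2 := by
    intro i hi
    have e : ∀ x x', (r i * vk π i x x' + π i x * π i x') * (g i x * g i x') =
        fz π u i (a i) ^ 2 * (r i * vk π i x x' + π i x * π i x') := by
      intro x x'
      simp only [hg, hi, if_true]
      ring
    simp only [e, ← mul_sum, sum_add_distrib, hsv, hπ1, mul_one]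
    ring
  have hnT : ∀ i, i ∉ T → ∑ x, ∑ x', (r i * vk π i x x' + π i x * π i x') * (g i x * g i x') =
      1 + r i * VV π u i := by
    intro i hi
    have e : ∀ x x', (r i * vk π i x x' + π i x * π i x') * (g i x * g i x') =
        r i * (if x = x' then π i x * fz π u i x * fz π u i x' else 0) +
        (1 - r i) * ((π i x * fz π u i x) * (π i x' * fz π u i x')) := by
      intro x x'
      simp only [hg, hi, if_false, vk]
      by_cases h : x = x'
      · simp only [if_pos h]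
        ring
      · simp only [if_neg h]
        ring
    simp only [e, sum_add_distrib, ← mul_sum]
    have e2 : ∑ x, ∑ x', (if x = x' then π i x * fz π u i x * fz π u i x' else 0) =
        ∑ x, π i x * fz π u i x ^ 2 := by
      refine sum_congr rfl fun x _ => ?_
      rw [sum_ite_eq]
      simp
      ring
    have e3 : ∑ x, (π i x * fz π u i x) * ∑ x', π i x' * fz π u i x' = 1 := by
      rw [mean_fz π hπ1 u hu, ← sum_mul, mean_fz π hπ1 u hu]
      ring
    rw [e2, e3]
    unfold VV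
    ring
  rw [← prod_mul_prod_compl T, ← prod_pow]
  have hV := VV_nonneg π hπ hπ1 u hu
  refine mul_le_mul ?_ ?_ (prod_nonneg fun i hi => ?_) (prod_nonneg fun i _ => sq_nonneg _)
  · refine prod_le_prod (fun i hi => ?_) fun i hi => ?_
    · rw [hT i hi]; exact sq_nonneg _
    · rw [hT i hi]
      exact pow_le_pow_left₀ (fz_nonneg π hπ u hu0 i _)
        ((fz_le π hπ u hu0 hu δ hδ hat i _).trans (hc i)) 2
  · rw [Real.exp_sum]
    calc ∏ i ∈ Tᶜ, ∑ x, ∑ x', (r i * vk π i x x' + π i x * π i x') * (g i x * g i x') ≤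
        ∏ i ∈ Tᶜ, Real.exp (r i * VV π u i) := by
          refine prod_le_prod (fun i hi => ?_) fun i hi => ?_
          · rw [hnT i (mem_compl.1 hi)]
            have := mul_nonneg (hr i) (hV i)
            linarith
          · rw [hnT i (mem_compl.1 hi)]
            have := Real.add_one_le_exp (r i * VV π u i)
            linarith
      _ ≤ ∏ i, Real.exp (r i * VV π u i) := by
          rw [← prod_mul_prod_compl T]
          refine le_mul_of_one_le_left (prod_nonneg fun i _ => (Real.exp_pos _).le) ?_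
          rw [← Real.exp_sum]
          exact Real.one_le_exp (sum_nonneg fun i _ => mul_nonneg (hr i) (hV i))
  · rw [hnT i (mem_compl.1 hi)]
    have := mul_nonneg (hr i) (hV i)
    linarith

/-- bound of the variance -/
theorem VV_le (π : ∀ i, X i → ℝ) (hπ : ∀ i x, 0 ≤ π i x) (hπ1 : ∀ i, ∑ x, π i x = 1)
    (u : ι → ℝ) (hu0 : ∀ i, 0 < u i)
    (hu : ∀ i, (Fintype.card (X i) : ℝ) * u i = 1) (δ : ℝ) (hδ : 0 < δ)
    (hat : ∀ i a, π i a = 0 ∨ δ * u i ≤ π i a) (i : ι) :
    VV π u i ≤ 1 / δ * ∑ a, (π i a - u i) ^ 2 / u i := by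
  have hm := mean_fz π hπ1 u hu i
  set z := zz π u i with hz
  -- `h = f - z`
  have e1 : VV π u i = ∑ a, (if π i a = 0 then 0 else (u i - π i a) ^ 2 / π i a) - z ^ 2 := by
    have e : ∀ a, π i a * fz π u i a ^ 2 =
        (if π i a = 0 then 0 else (u i - π i a) ^ 2 / π i a) +
          (2 * (1 + z) * (π i a * fz π u i a) - (1 + z) ^ 2 * π i a) := by
      intro a
      unfold fz
      rw [← hz]
      by_cases h : π i a = 0
      · simp [h]
      · rw [if_neg h, if_neg h]
        field_simp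
        ring
    unfold VV
    rw [sum_congr rfl fun a _ => e a, sum_add_distrib, sum_sub_distrib, ← mul_sum, ← mul_sum,
      hm, hπ1]
    ring
  rw [e1, mul_sum]
  have h2 : ∑ a, (if π i a = 0 then 0 else (u i - π i a) ^ 2 / π i a) ≤
      ∑ a, 1 / δ * ((π i a - u i) ^ 2 / u i) := by
    refine sum_le_sum fun a _ => ?_
    have hr0 : 0 ≤ 1 / δ * ((π i a - u i) ^ 2 / u i) := by
      have := hu0 i
      positivity
    split_ifs with h
    · exact hr0
    · have h1 := (hat i a).resolve_left h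
      have h3 : 0 < π i a := lt_of_le_of_ne (hπ i a) (Ne.symm h)
      have e2 : 1 / δ * ((π i a - u i) ^ 2 / u i) = (u i - π i a) ^ 2 / (δ * u i) := by
        have := (hu0 i).ne'
        field_simp
        ring
      rw [e2]
      exact div_le_div_of_nonneg_left (sq_nonneg _) (mul_pos hδ (hu0 i)) h1
  have := sq_nonneg z
  linarith

end Vale.Agent.P042.H305
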