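import Vale.Agent.P042.H305.Zsum
import Vale.Agent.P042.H305.LiMw

set_option autoImplicit false
set_option linter.unusedSectionVars false

/-!
The member `σ₀` for the integer law in target S.
-/

namespace Vale.Agent.P042.H305

open Finset Vale.Agent.P042.TT.Loc Vale.Agent.P042.UU.Loc Vale.Agent.P042.H599

variable {ι : Type} [Fintype ι] [DecidableEq ι]
variable {X : ι → Type} [∀ i, Fintype (X i)] [∀ i, DecidableEq (X i)]

/-- sum of the variances over the sites -/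
theorem sum_VV (prm : ι → ℕ) (hinj : Function.Injective prm) (v : ∀ i, X i → ℕ)
    (hv : ∀ i, ∀ F : ℕ → ℝ, ∑ a, F (v i a) = ∑ b ∈ range (prm i), F b)
    (π : ∀ i, X i → ℝ) (hπ : ∀ i x, 0 ≤ π i x) (hπ1 : ∀ i, ∑ x, π i x = 1)
    (hu0 : ∀ i, 0 < prm i) (δ : ℝ) (hδ : 0 < δ)
    (hat : ∀ i a, π i a = 0 ∨ δ * (1 / (prm i : ℝ)) ≤ π i a) (nu : ℕ → ℝ) (A M : ℕ)
    (hcm : ∀ i a, π i a = cm nu A M (prm i) (v i a)) :
    ∑ i, VV π (fun i => 1 / (prm i : ℝ)) i ≤ 1 / δ * ∑ p ∈ univ.image prm,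
      ∑ b ∈ range p, (cm nu A M p b - 1 / p) ^ 2 / (1 / (p : ℝ)) := by
  have hpr : ∀ i, (0 : ℝ) < prm i := fun i => by exact_mod_cast hu0 i
  have hcard : ∀ i, (Fintype.card (X i) : ℝ) * (1 / (prm i : ℝ)) = 1 := by
    intro i
    have h := hv i (fun _ => 1)
    simp only [sum_const, card_univ, nsmul_eq_mul, mul_one, card_range] at h
    rw [h]
    have := (hpr i).ne'
    field_simp
  rw [sum_image fun i _ j _ h => hinj h, mul_sum]
  refine sum_le_sum fun i _ => ?_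
  have h := VV_le π hπ hπ1 (fun i => 1 / (prm i : ℝ)) (fun i => by
    have := hpr i
    positivity) hcard δ hδ hat i
  refine h.trans (le_of_eq ?_)
  congr 1
  rw [← hv i (fun b => (cm nu A M (prm i) b - 1 / (prm i : ℝ)) ^ 2 / (1 / (prm i : ℝ)))]
  exact sum_congr rfl fun a _ => by rw [hcm i a]

/-- **`σ₀` in target S**: with `E₀ = exp ((17500 P / l ^ C + 1000) / δ)` the function `Fz` has
local energies at most `(∏ c i) ^ 2 * E₀` at all rates `≤ 1`, and it dominates the normalisation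
of the noised weight. -/
theorem sig0_S (C : ℕ) (hC : 2 ≤ C) : ∃ P0 : ℝ, ∀ P : ℝ, P0 ≤ P → ∀ (N' : ℕ),
    Real.exp (P / 2) ≤ N' → ∀ mu : ℕ → ℝ, Law mu 1 N' →
    (∀ n, mu n ≤ Real.exp (50 * (P / Real.log P ^ C) + 1) / N') →
    ∀ (ι : Type) [Fintype ι] [DecidableEq ι] (X : ι → Type) [∀ i, Fintype (X i)]
      [∀ i, DecidableEq (X i)] (prm : ι → ℕ) (_ : Function.Injective prm) (v : ∀ i, X i → ℕ)
      (_ : ∀ i, ∀ F : ℕ → ℝ, ∑ a, F (v i a) = ∑ b ∈ range (prm i), F b)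
      (π : ∀ i, X i → ℝ) (_ : ∀ i x, 0 ≤ π i x) (_ : ∀ i, ∑ x, π i x = 1)
      (_ : ∀ i, (prm i).Prime ∧ (prm i : ℝ) ≤ P ^ 2)
      (_ : ∀ i a, π i a = cm mu 1 N' (prm i) (v i a))
      (_ : ∀ i, ∀ b < prm i, (prm i : ℝ) * cm mu 1 N' (prm i) b ≤ 8)
      (δ : ℝ) (_ : 0 < δ) (_ : ∀ i a, π i a = 0 ∨ δ * (1 / (prm i : ℝ)) ≤ π i a)
      (r0 c : ι → ℝ) (_ : ∀ i, 0 ≤ r0 i) (_ : ∀ i, r0 i ≤ 1) (_ : ∀ i, 1 / δ + 1 ≤ c i),
      (∀ (k : ℕ) (T : Finset ι) (a : ∀ i, X i),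
        TT.Loc.en π r0 (tr π k (restr T a (Fz π (fun i => 1 / (prm i : ℝ))))) ≤
          (∏ i ∈ T, c i) ^ 2 * Real.exp (1 / δ * (17500 * (P / Real.log P ^ C) + 1000))) ∧
      (∀ q : ι → ℝ, (∀ i, 0 ≤ q i) → (∀ i, q i ≤ 1) → ∀ (T : Finset ι) (x : ∀ i, X i),
        (∀ i ∈ T, π i (x i) ≠ 0) →
        ∏ i ∈ T, (1 - q i + q i * ((1 / (prm i : ℝ)) / π i (x i))) ≤
          uo q π (Fz π (fun i => 1 / (prm i : ℝ))) (mask T x)) := by
  obtain ⟨P0, hP0⟩ := sum_chi_S C hC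
  refine ⟨P0, fun P hP N' hN mu hmu hcap ι _ _ X _ _ prm hinj v hv π hπ hπ1 hprm hcm h8 δ hδ hat
    r0 c hr0 hr1 hc => ?_⟩
  have hpos : ∀ i, 0 < prm i := fun i => (hprm i).1.pos
  have hpr : ∀ i, (0 : ℝ) < prm i := fun i => by exact_mod_cast hpos i
  have hcard : ∀ i, (Fintype.card (X i) : ℝ) * (1 / (prm i : ℝ)) = 1 := by
    intro i
    have h := hv i (fun _ => 1)
    simp only [sum_const, card_univ, nsmul_eq_mul, mul_one, card_range] at h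
    rw [h]
    have := (hpr i).ne'
    field_simp
  have hu : ∀ i, (0 : ℝ) < 1 / (prm i : ℝ) := fun i => by
    have := hpr i
    positivity
  have h1 := hP0 P hP N' hN mu hmu hcap (univ.image prm) (fun p hp => by
    obtain ⟨i, _, rfl⟩ := mem_image.1 hp
    exact hprm i) (fun p hp => by
    obtain ⟨i, _, rfl⟩ := mem_image.1 hp
    exact h8 i)
  have h2 := sum_VV prm hinj v hv π hπ hπ1 hpos δ hδ hat mu 1 N' hcm
  have hV := VV_nonneg π hπ hπ1 (fun i => 1 / (prm i : ℝ)) hcard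
  have h3 : ∑ i, r0 i * VV π (fun i => 1 / (prm i : ℝ)) i ≤
      1 / δ * (17500 * (P / Real.log P ^ C) + 1000) := by
    calc _ ≤ ∑ i, VV π (fun i => 1 / (prm i : ℝ)) i :=
          sum_le_sum fun i _ => mul_le_of_le_one_left (hV i) (hr1 i)
      _ ≤ _ := h2.trans (mul_le_mul_of_nonneg_left h1 (by positivity))
  refine ⟨fun k T a => ?_, fun q hq0 hq1 T x hx => ?_⟩
  · have h4 := en_fz π hπ hπ1 (fun i => 1 / (prm i : ℝ)) hu hcard δ hδ hat r0 c hr0 hc k T a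
    refine h4.trans ?_
    gcongr
  · exact nz_le_uo π hπ hπ1 (fun i => 1 / (prm i : ℝ)) hu hcard q hq0 hq1 T x hx

end Vale.Agent.P042.H305
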