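import Vale.Agent.P042.H305.Zsig
import Vale.Agent.P042.H599.Pack

set_option autoImplicit false

/-!
The sum of the variances for the integer law: level one.
-/

namespace Vale.Agent.P042.H305

open Finset Vale.Agent.P042.H599

/-- sum of the chi-square distances to the uniform measure -/
theorem sum_chi (W : Finset ℕ) (hW : ∀ p ∈ W, p.Prime) (Y : ℕ) (hY1 : 1 ≤ Y)
    (hY : ∀ p ∈ W, p ≤ Y) (A M m : ℕ) (hm : 1 ≤ m) (D : ℝ) (hD : 0 ≤ D) (nu : ℕ → ℝ)
    (hnu : Law nu A M) (hb : ∀ i < M, nu (A + i) ≤ Real.exp D / M)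
    (hM : 2 * (8 * (W.card : ℝ) * Y) ^ (2 * m) ≤ M)
    (h8 : ∀ p ∈ W, ∀ b < p, (p : ℝ) * cm nu A M p b ≤ 8) :
    ∑ p ∈ W, ∑ b ∈ range p, (cm nu A M p b - 1 / p) ^ 2 / (1 / (p : ℝ)) ≤
      128 * m * Real.exp (D / m) := by
  have hc : (W : Set ℕ).Pairwise Nat.Coprime := by
    intro p hp q hq hpq
    exact (Nat.coprime_primes (hW p hp) (hW q hq)).2 hpq
  have h := level1 W (fun p hp => (hW p hp).pos) hc Y hY1 hY A M m hnu.pos hm D hD nu hnu.nonneg
    hnu.sum hb hM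
  refine le_trans (le_of_eq ?_) h
  unfold lev
  refine sum_congr rfl fun p hp => ?_
  have hp0 : (0 : ℝ) < p := by exact_mod_cast (hW p hp).pos
  unfold av
  rw [sum_div]
  refine sum_congr rfl fun b hb' => ?_
  have h1 := h8 p hp b (mem_range.1 hb')
  have h2 : ps nu A M p b = p * cm nu A M p b - 1 := by
    unfold ps
    exact min_eq_left (by linarith)
  rw [h2]
  field_simp

/-- numbers of target S -/
theorem sum_chi_S (C : ℕ) (hC : 2 ≤ C) : ∃ P0 : ℝ, ∀ P : ℝ, P0 ≤ P → ∀ (N' : ℕ),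
    Real.exp (P / 2) ≤ N' → ∀ mu : ℕ → ℝ, Law mu 1 N' →
    (∀ n, mu n ≤ Real.exp (50 * (P / Real.log P ^ C) + 1) / N') →
    ∀ W : Finset ℕ, (∀ p ∈ W, p.Prime ∧ (p : ℝ) ≤ P ^ 2) →
    (∀ p ∈ W, ∀ b < p, (p : ℝ) * cm mu 1 N' p b ≤ 8) →
    ∑ p ∈ W, ∑ b ∈ range p, (cm mu 1 N' p b - 1 / p) ^ 2 / (1 / (p : ℝ)) ≤
      17500 * (P / Real.log P ^ C) + 1000 := by
  have hlim : ∀ P : ℝ, Real.exp 2000 ≤ P → Real.exp 4 ≤ P ∧
      (100 * (P / Real.log P ^ C) + 4) * (4 * Real.log P + 3) + 1 ≤ P / 2 := by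
    intro P hP
    have hPpos : 0 < P := lt_of_lt_of_le (Real.exp_pos _) hP
    have hl : 2000 ≤ Real.log P := by
      rw [Real.le_log_iff_exp_le hPpos]; exact hP
    have h4 : Real.exp 4 ≤ P := (Real.exp_le_exp.2 (by norm_num)).trans hP
    refine ⟨h4, ?_⟩
    set l := Real.log P with hld
    have hPl : P = Real.exp l := (Real.exp_log hPpos).symm
    have h1 : 1000 * l ≤ P := by
      rw [hPl]
      have := Real.quadratic_le_exp_of_nonneg (show 0 ≤ l by linarith)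
      nlinarith
    have h2 : P / l ^ C ≤ P / l ^ 2 := by
      apply div_le_div_of_nonneg_left hPpos.le (by positivity)
      exact pow_le_pow_right₀ (by linarith) hC
    have h3 : P / l ^ 2 * l ≤ P / 2000 := by
      have : P / l ^ 2 * l = P / l := by field_simp
      rw [this]
      exact div_le_div_of_nonneg_left hPpos.le (by norm_num) hl
    have h5 : P / l ^ 2 ≤ P / 4000000 := by
      apply div_le_div_of_nonneg_left hPpos.le (by norm_num)
      nlinarith
    have h6 : (100 * (P / l ^ C) + 4) * (4 * l + 3) ≤ (100 * (P / l ^ 2) + 4) * (4 * l + 3) := by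
      have : 0 ≤ 4 * l + 3 := by linarith
      gcongr
    have h7 : (100 * (P / l ^ 2) + 4) * (4 * l + 3) =
        400 * (P / l ^ 2 * l) + 300 * (P / l ^ 2) + 16 * l + 12 := by ring
    rw [h7] at h6
    linarith
  refine ⟨Real.exp 2000, fun P hP N' hN mu hmu hcap W hW h8 => ?_⟩
  obtain ⟨hP4, hnum⟩ := hlim P hP
  set x : ℝ := P / Real.log P ^ C with hx
  have hPpos : 0 < P := lt_of_lt_of_le (Real.exp_pos 4) hP4
  have hl4 : 4 ≤ Real.log P := by
    rw [Real.le_log_iff_exp_le hPpos]; exact hP4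
  have hx0 : 0 ≤ x := by rw [hx]; positivity
  set D : ℝ := 50 * x + 1 with hD
  have hD0 : 0 ≤ D := by positivity
  set m : ℕ := ⌈D⌉₊ with hm
  have hm1 : 1 ≤ m := Nat.one_le_iff_ne_zero.2 (by
    rw [hm]; exact (Nat.ceil_pos.2 (by rw [hD]; linarith)).ne')
  have hmD : D ≤ m := Nat.le_ceil D
  have hmD' : (m : ℝ) ≤ D + 1 := (Nat.ceil_lt_add_one hD0).le
  set Y : ℕ := ⌊P ^ 2⌋₊ with hYd
  have hP1 : 1 ≤ P := by
    have : (1:ℝ) ≤ Real.exp 4 := Real.one_le_exp (by norm_num)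
    linarith
  have hY1 : 1 ≤ Y := Nat.le_floor (by push_cast; nlinarith)
  have hYle : (Y : ℝ) ≤ P ^ 2 := Nat.floor_le (by positivity)
  have hWY : ∀ p ∈ W, p ≤ Y := fun p hp => Nat.le_floor (hW p hp).2
  have hWc : (W.card : ℝ) ≤ P ^ 2 := by
    have : W.card ≤ Y := by
      calc W.card ≤ (Finset.Icc 1 Y).card := card_le_card fun p hp =>
            Finset.mem_Icc.2 ⟨(hW p hp).1.one_lt.le, hWY p hp⟩
        _ = Y := by simp
    exact (Nat.cast_le.2 this).trans hYle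
  have hM : 2 * (8 * (W.card : ℝ) * Y) ^ (2 * m) ≤ N' := by
    have h1 : 8 * (W.card : ℝ) * Y ≤ Real.exp (4 * Real.log P + 3) := by
      have e1 : Real.exp (4 * Real.log P + 3) = P ^ 4 * Real.exp 3 := by
        rw [Real.exp_add]
        congr 1
        rw [show 4 * Real.log P = ((4 : ℕ) : ℝ) * Real.log P by norm_num, Real.exp_nat_mul,
          Real.exp_log hPpos]
      rw [e1]
      have h2 : (8 : ℝ) ≤ Real.exp 3 := by
        have := Real.add_one_le_exp (3 : ℝ)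
        have h3 : (2 : ℝ) ≤ Real.exp 1 := by
          have := Real.add_one_le_exp (1 : ℝ); linarith
        calc (8 : ℝ) = 2 ^ 3 := by norm_num
          _ ≤ Real.exp 1 ^ 3 := pow_le_pow_left₀ (by norm_num) h3 3
          _ = Real.exp 3 := by rw [← Real.exp_nat_mul]; norm_num
      calc 8 * (W.card : ℝ) * Y ≤ 8 * P ^ 2 * P ^ 2 := by gcongr
        _ = P ^ 4 * 8 := by ring
        _ ≤ _ := by gcongr
    have h3 : 2 * (8 * (W.card : ℝ) * Y) ^ (2 * m) ≤
        Real.exp 1 * Real.exp (4 * Real.log P + 3) ^ (2 * m) := by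
      have h4 : (2 : ℝ) ≤ Real.exp 1 := by
        have := Real.add_one_le_exp (1 : ℝ); linarith
      gcongr
    refine h3.trans (le_trans ?_ hN)
    rw [← Real.exp_nat_mul, ← Real.exp_add]
    apply Real.exp_le_exp.2
    push_cast
    have h5 : (m : ℝ) ≤ 50 * x + 2 := by rw [hD] at hmD'; linarith
    have h6 : 0 ≤ 4 * Real.log P + 3 := by linarith
    nlinarith [mul_le_mul_of_nonneg_right h5 h6]
  have h := sum_chi W (fun p hp => (hW p hp).1) Y hY1 hWY 1 N' m hm1 D hD0 mu hmu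
    (fun i _ => hcap _) hM h8
  refine h.trans ?_
  have hmpos : (0 : ℝ) < m := by exact_mod_cast hm1
  have h7 : Real.exp (D / m) ≤ Real.exp 1 := Real.exp_le_exp.2 (by
    rw [div_le_one hmpos]; exact hmD)
  have h8' : Real.exp 1 ≤ 2.7182818286 := Real.exp_one_lt_d9.le
  calc 128 * (m : ℝ) * Real.exp (D / m) ≤ 128 * (50 * x + 2) * 2.7182818286 := by
        have h5 : (m : ℝ) ≤ 50 * x + 2 := by rw [hD] at hmD'; linarith
        have := h7.trans h8'
        gcongr
    _ ≤ _ := by nlinarith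

end Vale.Agent.P042.H305
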